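import Vale.Agent.P297Z.Tau.Lev
import Vale.Agent.P297Z.Surf.Spc

/-!
# From additive functions on graded modules to functionals on `G`
-/

set_option linter.unusedSectionVars false

namespace Vale.Agent.P297Z.Tau

open GM

variable (X : Spc)

/-- The grading of the ring of a space with a torus of rank one. -/
noncomputable def gr (i : ℤ) : Submodule ℂ X.R := X.wt fun _ => i

variable [Unique X.J]

theorem const_inj : Function.Injective fun (i : ℤ) (_ : X.J) => i :=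
  fun _ _ h => congrFun h default

theorem const_surj : Function.Surjective fun (i : ℤ) (_ : X.J) => i :=
  fun γ => ⟨γ default, funext fun j => congrArg γ (Unique.eq_default j).symm⟩

noncomputable instance : GradedRing (gr X) where
  one_mem := X.one_mem
  mul_mem := fun _ _ _ _ ha hb => Spc.mul_mem ha hb
  toDecomposition := (DirectSum.isInternal_submodule_of_iSupIndep_of_iSup_eq_top
    (wt_indep.comp (const_inj X)) (((const_surj X).iSup_comp X.wt).trans X.span)).chooseDecomposition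

variable {X}

/-- An equivariant module as a graded module. -/
noncomputable def toGM (M : GMod X) : GM (gr X) where
  M := M.M
  π j := (M.cmp fun _ => j).toAddMonoidHom
  π_π i j m := by
    split_ifs with h
    · exact h ▸ M.cmp_of_mem (M.cmp_mem _ m)
    · exact M.cmp_of_ne (fun h1 => h (const_inj X h1).symm) (M.cmp_mem _ m)
  sum m := by
    obtain ⟨s, hs, -⟩ := M.exists_sum_cmp m
    refine ⟨s.map (Equiv.ofBijective _ ⟨const_inj X, const_surj X⟩).symm.toEmbedding, ?_⟩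
    rw [Finset.sum_map]
    refine (Finset.sum_congr rfl fun γ _ => ?_).trans hs
    exact congrArg (M.cmp · m) ((Equiv.ofBijective _ ⟨const_inj X, const_surj X⟩).apply_symm_apply γ)
  π_smul _ _ _ m ha := M.cmp_smul ha _ m

/-- An equivariant map as a graded map. -/
noncomputable def toHom {A B : GMod X} {f : A.M →ₗ[X.R] B.M} (hf : A.IsHom B f) :
    Hom (toGM A) (toGM B) := ⟨f, fun _ x => (hf.map_cmp _ x).symm⟩

omit [Unique X.J] in
theorem exists_pt {P : Ideal X.R} (hP : P.IsPrime) {a : X.R} (ha : a ∉ P) :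
    ∃ z : X.R →ₐ[ℂ] ℂ, z a ≠ 0 ∧ ∀ r ∈ P, z r = 0 := by
  obtain ⟨z, hz⟩ := Sf.exists_hom_ne (A := X.R ⧸ P) (mt Ideal.Quotient.eq_zero_iff_mem.1 ha)
  exact ⟨z.comp (Ideal.Quotient.mkₐ ℂ P), hz, fun r hr =>
    (congrArg z (Ideal.Quotient.eq_zero_iff_mem.2 hr)).trans (map_zero z)⟩

variable (hb : ∀ y ∈ gr X 1, y ∈ X.b)
include hb

theorem in_irr {A : GM (gr X)} (h : ∀ (z : X.Pt) (a : A.M), ∃ r, z.1 r ≠ 0 ∧ r • a = 0) :
    A.In (Irr (gr X)) := by
  intro P hP _ h1 y hy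
  by_contra h2
  obtain ⟨z, hz, h3⟩ := exists_pt hP h2
  obtain ⟨r, hr, h4⟩ := exists_kill (A := A) (N := ⊥) (RingHom.ker_isPrime z)
    fun _ a _ => h ⟨z, y, hb y hy, hz⟩ a
  exact hr (h3 r (h1 r h4))

theorem exists_G {Q : Type} [AddCommGroup Q] {τ : GM (gr X) → Q}
    (h1 : ∀ A B C : GM (gr X), SES A B C → τ B = τ A + τ C)
    (h2 : ∀ A : GM (gr X), A.In (Irr (gr X)) → τ A = 0) :
    ∃ t : G X →+ Q, ∀ M, t (cls M) = τ (toGM M) := by
  refine ⟨QuotientAddGroup.lift (GRel X) (FreeAbelianGroup.lift fun M => τ (toGM M))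
    ((AddSubgroup.closure_le _).2 ?_), fun M => FreeAbelianGroup.lift_apply_of _ _⟩
  rintro _ ⟨A, B, C, f, g, ⟨hf, hg, hgf, hz⟩, rfl⟩
  have hk := (toHom hg).hg_ker
  obtain ⟨u, hu⟩ := exists_lift ((toGM B).incl _ hk) Subtype.val_injective (toHom hf)
    fun x => ⟨⟨f x, hgf x⟩, rfl⟩
  have e1 := h1 _ _ _ ((toGM A).ses_sub u.hg_ker)
  have e2 := h1 _ _ _ (ses_range u u.hg_ker u.hg_range (fun _ => Iff.rfl) fun _ => Iff.rfl)
  have e3 := h1 _ _ _ ((toGM B).ses_sub hk)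
  have e4 := h1 _ _ _ (ses_range (toHom hg) hk (toHom hg).hg_range (fun _ => Iff.rfl)
    fun _ => Iff.rfl)
  rw [h2 ((toGM A).sub _ _) (in_irr hb fun z a => ?_), zero_add] at e1
  rw [h2 (GM.quot _ _ u.hg_range) (in_irr hb fun z a => ?_), add_zero] at e2
  rw [h2 (GM.quot _ _ (toHom hg).hg_range) (in_irr hb fun z a => ?_), add_zero] at e4
  · rw [SetLike.mem_coe, AddMonoidHom.mem_ker, map_sub, map_sub, FreeAbelianGroup.lift_apply_of,
      FreeAbelianGroup.lift_apply_of, FreeAbelianGroup.lift_apply_of, e1, e3, e4, e2]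
    abel
  · obtain ⟨c, rfl⟩ := mkQ_surj _ _ (toHom hg).hg_range a
    obtain ⟨r, b, hr, e⟩ := (hz z).2.2 c
    exact ⟨r, hr, (map_smul _ _ _).symm.trans (mkQ_eq_zero.2 ⟨b, e⟩)⟩
  · obtain ⟨b, rfl⟩ := mkQ_surj _ _ u.hg_range a
    obtain ⟨r, a, hr, e⟩ := (hz z).2.1 b.1 b.2
    exact ⟨r, hr, (map_smul _ _ _).symm.trans (mkQ_eq_zero.2 ⟨a, Subtype.ext ((hu a).trans e)⟩)⟩
  · obtain ⟨r, hr, e⟩ := (hz z).1 a.1 ((hu a.1).symm.trans (congrArg Subtype.val a.2))
    exact ⟨r, hr, Subtype.ext e⟩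

omit hb in
theorem tau_quo {Q : Type} [AddCommGroup Q] {τ : GM (gr X) → Q}
    (h1 : ∀ A B C : GM (gr X), SES A B C → τ B = τ A + τ C)
    (h2 : ∀ A : GM (gr X), A.In (Irr (gr X)) → τ A = 0) {I : Ideal X.R} (hI : (GMod.one X).Stab I) :
    τ (toGM ((GMod.one X).quo I hI)) = τ (cyc (gr X) I 0) := by
  have hm : (toGM ((GMod.one X).quo I hI)).H 0 (Ideal.Quotient.mk I 1) :=
    GMod.cmp_of_mem _ (GMod.IsHom.map_wt (M := GMod.one X) (N := (GMod.one X).quo I hI)
      (f := Submodule.mkQ I) (fun _ _ => rfl) X.one_mem)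
  have h3 : ∀ r : X.R, r • Ideal.Quotient.mk I 1 = Ideal.Quotient.mk I r := fun r =>
    congrArg (Ideal.Quotient.mk I) (mul_one r)
  rw [h1 _ _ _ (ses_cyc' hm (I := I) fun r => by
    exact (Eq.congr_left (h3 r)).trans Ideal.Quotient.eq_zero_iff_mem),
    h2 (GM.quot _ _ _) (in_of_subsingleton (subsingleton_of_forall_eq 0 fun a => ?_)), add_zero]
  obtain ⟨a, rfl⟩ := mkQ_surj _ _ hm.hg_span a
  obtain ⟨r, rfl⟩ := Ideal.Quotient.mk_surjective (I := I) a
  exact mkQ_eq_zero.2 (Submodule.mem_span_singleton.2 ⟨r, h3 r⟩)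

end Vale.Agent.P297Z.Tau
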