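import Vale.Agent.P297Z.Tau.Rat
import Vale.Agent.P297Z.Tau.Wrap
import Vale.Agent.P297Z.Top.Fin

/-!
# A function on points that kills the principal cycles extends to `G`
-/

set_option linter.unusedSectionVars false

namespace Vale.Agent.P297Z.Tau

open Sf GM LaurentPolynomial

variable {K : Type} [Field K] [Algebra ℂ K] {S : Surf K} (h : S.All)

instance : Unique (S.spc h).J := inferInstanceAs (Unique Unit)

open Classical in
/-- The dehomogenisation. -/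
noncomputable def evA (w : K) : (S.spc h).R →ₐ[ℂ] K :=
  (if h0 : w ≠ 0 then deh w h0 else deh 1 one_ne_zero).comp S.ring.val

/-- The dehomogenisation as a ring map. -/
noncomputable def evS (w : K) : (S.spc h).R →+* K := evA h w

/-- The linear forms. -/
noncomputable def ln : S.W →ₗ[ℂ] (S.spc h).R := S.linL

theorem evS_mon {w : K} (h0 : w ≠ 0) {a : S.ring} {u : K} {m : ℤ} (e : a.1 = mon u m) :
    evS h w a = u / w ^ m := by
  rw [evS, evA, dif_pos h0, ← deh_mon h0, ← e]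
  rfl

theorem evS_const (w : K) (c : ℂ) : evS h w (algebraMap ℂ _ c) = algebraMap ℂ K c :=
  (evA h w).commutes c

theorem gr_mon {i : ℤ} {a : S.ring} (ha : a ∈ gr (S.spc h) i) :
    ∃ u ∈ S.Wp i, a.1 = mon u i :=
  ⟨_, S.mem_ring.1 a.2 i, eq_mon_of_scale fun g =>
    (congrArg Subtype.val (ha fun _ => g)).trans (congrArg (· • a.1) (chr_unit _ _))⟩

theorem rm : RM S.W (gr (S.spc h)) (evS h) where
  hom w h0 n a ha := by
    obtain ⟨u, -, e⟩ := gr_mon h ha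
    rw [evS_mon h h0 e, evS_mon h one_ne_zero e, one_zpow, div_one, zpow_natCast]
  inj n a ha h1 := by
    obtain ⟨u, -, e⟩ := gr_mon h ha
    rw [evS_mon h one_ne_zero e, one_zpow, div_one] at h1
    exact Subtype.ext (e.trans (h1 ▸ mon_zero _))
  mem n a ha := by
    obtain ⟨u, hu, e⟩ := gr_mon h ha
    rwa [evS_mon h one_ne_zero e, one_zpow, div_one, ← S.Wp_nat]
  surj n u hu := ⟨S.form n u hu, fun g => S.actR_form g n u hu, by
    rw [evS_mon h one_ne_zero rfl, one_zpow, div_one]⟩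
  neg i hi a ha := by
    obtain ⟨u, hu, e⟩ := gr_mon h ha
    rw [S.Wp_neg hi, Submodule.mem_bot] at hu
    exact Subtype.ext (e.trans (hu ▸ mon_zero _))

theorem ln_gr (w : S.W) : ln h w ∈ gr (S.spc h) 1 := fun g =>
  S.actR_form g 1 w (by rw [pow_one]; exact w.2)

theorem evS_ln {w₀ : K} (h0 : w₀ ≠ 0) (w : S.W) : evS h w₀ (ln h w) = w / w₀ :=
  (evS_mon h h0 (S.coe_lin w)).trans (by rw [zpow_one])

theorem gr_ln {y : (S.spc h).R} (hy : y ∈ gr (S.spc h) 1) : ∃ w, ln h w = y := by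
  obtain ⟨u, hu, e⟩ := gr_mon h hy
  exact ⟨⟨u, S.Wp_one ▸ hu⟩, Subtype.ext e.symm⟩

theorem ln_mem (w : S.W) : ln h w ∈ (S.spc h).b := Ideal.subset_span ⟨w, rfl⟩

theorem over_iff {p : Pt S.W} {z : (S.spc h).Pt} :
    S.Over h z p ↔ ∀ w : S.W, z.1 (ln h w) = 0 ↔ (w : K) ∈ van p := Iff.rfl

include h in
theorem exists_val {p : Pt S.W} {w₀ : S.W} (h0 : p.In w₀) (w : S.W) :
    ∃ c : ℂ, p.Van ((w : K) / w₀ - algebraMap ℂ K c) ∧ ((w - c • w₀ : S.W) : K) ∈ van p := by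
  obtain ⟨c, hc⟩ := h.val p _ (h0.2 w w.2)
  refine ⟨c, hc, mem_van.2 ⟨Subtype.property _, ?_⟩⟩
  rw [Pt.in_iff h0 w₀.2 (Subtype.property _), not_not, Submodule.coe_sub, Submodule.coe_smul,
    sub_div, Algebra.smul_def, mul_div_cancel_right₀ _ h0.1]
  exact hc

theorem over_val {p : Pt S.W} {z : (S.spc h).Pt} (hz : S.Over h z p) :
    ∃ w ∈ S.W, p.In w ∧ ∀ r, p.Van (evS h w r - algebraMap ℂ K (z.1 r)) := by
  rw [over_iff] at hz
  obtain ⟨w₀, hw₀, h0⟩ := p.exists_in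
  have h1 : z.1 (ln h ⟨w₀, hw₀⟩) ≠ 0 := fun h1 => (mem_van.1 ((hz _).1 h1)).2 h0
  obtain ⟨w, h2⟩ : ∃ w, z.1 (ln h w) = 1 := ⟨(z.1 (ln h ⟨w₀, hw₀⟩))⁻¹ • ⟨w₀, hw₀⟩, by
    rw [map_smul, map_smul, smul_eq_mul, inv_mul_cancel₀ h1]⟩
  have h3 : p.In w := by_contra fun h3 =>
    one_ne_zero (h2.symm.trans ((hz w).2 (mem_van.2 ⟨w.2, h3⟩)))
  refine ⟨w, w.2, h3, fun r => ?_⟩
  have h4 : Algebra.adjoin ℂ (ln h '' Set.univ) = ⊤ := S.adjoin_lin Submodule.span_univ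
  have h5 : r ∈ Algebra.adjoin ℂ (ln h '' Set.univ) := h4 ▸ trivial
  induction h5 using Algebra.adjoin_induction with
  | mem x hx =>
    obtain ⟨u, -, rfl⟩ := hx
    obtain ⟨c, h5, h6⟩ := exists_val h h3 u
    rw [← hz, map_sub, map_sub, map_smul, map_smul, h2, smul_eq_mul, mul_one, sub_eq_zero] at h6
    rwa [evS_ln h h3.1, h6]
  | algebraMap c =>
    rw [evS_const, z.1.commutes]
    exact (sub_self (algebraMap ℂ K c)).symm ▸ p.van_zero
  | add x y _ _ hx hy =>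
    have := hx.add hy
    rwa [← add_sub_add_comm, ← map_add, ← map_add, ← map_add] at this
  | mul x y _ _ hx hy =>
    have := (hx.mul_right ((rm h).ev_mem h3.1 h3.2 y)).add
      (hy.mul_left (p.ring.algebraMap_mem (z.1 x)))
    rwa [sub_mul, mul_sub, sub_add_sub_cancel, ← map_mul, ← map_mul, ← map_mul] at this

theorem van_eq {p : Pt S.W} {P : Ideal (S.spc h).R} (hP : IsPt (gr (S.spc h)) (evS h) p P) :
    (S.spc h).van {z | S.Over h z p} = P := by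
  have h1 : ∀ w : S.W, ln h w ∈ P ↔ (w : K) ∈ van p := fun w => by
    rw [mem_van, and_iff_right w.2, ← not_iff_not, not_not, (rm h).pt_in hP (ln_gr h w),
      evS_ln h one_ne_zero, div_one]
  refine le_antisymm (fun a ha => by_contra fun h2 => ?_)
    ((rm h).le hP.2.1 fun n a ha haP z hz => ?_)
  · obtain ⟨w₀, hw₀, h0⟩ := p.exists_in
    have h3 : ln h ⟨w₀, hw₀⟩ ∉ P := fun h3 => (mem_van.1 ((h1 _).1 h3)).2 h0
    obtain ⟨z, hz, h4⟩ := exists_pt hP.1 fun h4 => (hP.1.mem_or_mem h4).elim h2 h3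
    rw [map_mul] at hz
    have h5 := right_ne_zero_of_mul hz
    refine left_ne_zero_of_mul hz (ha ⟨z, _, ln_mem h _, h5⟩ ((over_iff h).2 fun w =>
      ⟨fun h6 : z _ = 0 => ?_, fun h6 => h4 _ ((h1 w).2 h6)⟩))
    obtain ⟨c, -, h7⟩ := exists_val h (w₀ := ⟨w₀, hw₀⟩) h0 w
    have h8 := h4 _ ((h1 _).2 h7)
    rw [map_sub, map_sub, map_smul, map_smul, h6, zero_sub, neg_eq_zero] at h8
    rwa [(mul_eq_zero.1 h8).resolve_right h5, zero_smul, sub_zero] at h7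
  · obtain ⟨w, hw, h2, h3⟩ := over_val h hz
    have h4 := ((hP.2.2 w hw h2 n a ha).1 haP).sub (h3 a)
    rw [sub_sub_cancel] at h4
    exact Pt.van_const h4

end Vale.Agent.P297Z.Tau

namespace Vale.Agent.P297Z.Sf

open Tau

theorem tau : TAU := by
  intro K _ _ S h c hc
  obtain ⟨τ, h1, h2, h3⟩ := (rm h).exists_tau h.toLoc hc
  obtain ⟨t, ht⟩ := exists_G (fun y hy => by
    obtain ⟨w, rfl⟩ := gr_ln h hy
    exact ln_mem h w) h1 h2
  refine ⟨t, fun p => ?_⟩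
  obtain ⟨P, hP⟩ := (rm h).exists_isPt p
  rw [Surf.ptG, ht, tau_quo h1 h2, van_eq h hP, h3 p P hP]

end Vale.Agent.P297Z.Sf
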