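import Vale.Agent.P297Z.Tau.Cyc

/-!
# Extension of an additive function by one level of primes
-/

set_option linter.unusedSectionVars false

namespace Vale.Agent.P297Z.Tau

open Function

variable {R : Type} [CommRing R] {σ : Type} [SetLike σ R] [AddSubgroupClass σ R]

namespace GM

variable {𝒜 : ℤ → σ} [GradedRing 𝒜] {𝒮 : Set (Ideal R)} {Q : Type*} [AddCommGroup Q]

/-- An additive function on the modules with support in `𝒮`. -/
def Add (𝒮 : Set (Ideal R)) (τ : GM 𝒜 → Q) : Prop :=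
  ∀ A B C : GM 𝒜, SES A B C → B.In 𝒮 → τ B = τ A + τ C

theorem Add.zero {τ : GM 𝒜 → Q} (h : Add 𝒮 τ) {A : GM 𝒜} (hA : Subsingleton A.M) : τ A = 0 := by
  have := h A A A ⟨Hom.id A, Hom.id A, injective_id, surjective_id, fun y =>
    ⟨fun _ => ⟨y, rfl⟩, fun _ => Subsingleton.elim _ _⟩⟩ (in_of_subsingleton hA)
  exact left_eq_add.1 this

theorem Add.mono {τ : GM 𝒜 → Q} {𝒮' : Set (Ideal R)} (h : Add 𝒮' τ) (h1 : 𝒮 ⊆ 𝒮') : Add 𝒮 τ :=
  fun A B C h2 h3 => h A B C h2 (h3.mono h1)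

theorem pow_mem {y : R} (hy : y ∈ 𝒜 1) (k : ℕ) : y ^ k ∈ 𝒜 k := by
  simpa using SetLike.pow_mem_graded k hy

theorem exists_proj {P : Ideal R} {a : R} (ha : a ∉ P) : ∃ i, GradedRing.proj 𝒜 i a ∉ P := by
  by_contra hc
  obtain ⟨s, hs⟩ := (one 𝒜).sum a
  exact ha (hs ▸ P.sum_mem fun i _ => by_contra fun h => hc ⟨i, h⟩)

theorem exists_kill {P : Ideal R} (hP : P.IsPrime) {A : GM 𝒜} {N : Submodule R A.M}
    (h : ∀ j x, A.H j x → ∃ r, r ∉ P ∧ r • x ∈ N) : ∃ r, r ∉ P ∧ ∀ x, r • x ∈ N := by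
  classical
  have h1 : ∀ (ι : Type) (s : Finset ι) (g : ι → A.M), (∀ i, ∃ r, r ∉ P ∧ r • g i ∈ N) →
      ∃ r, r ∉ P ∧ ∀ i ∈ s, r • g i ∈ N := by
    intro ι s g hg
    choose r hr hr' using hg
    refine ⟨∏ i ∈ s, r i, fun h2 => ?_, fun i hi => ?_⟩
    · obtain ⟨i, -, h3⟩ := (Ideal.IsPrime.prod_mem_iff (hp := hP)).1 h2
      exact hr i h3
    · rw [← Finset.prod_erase_mul s r hi, mul_smul]
      exact N.smul_mem _ (hr' i)
  have h2 : ∀ x, ∃ r, r ∉ P ∧ r • x ∈ N := by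
    intro x
    obtain ⟨s, hs⟩ := A.sum x
    obtain ⟨r, hr, hr'⟩ := h1 ℤ s (fun j => A.π j x) fun j => h j _ (A.H_π j x)
    refine ⟨r, hr, ?_⟩
    rw [← hs, Finset.smul_sum]
    exact N.sum_mem hr'
  obtain ⟨s, hs⟩ := A.fin.fg_top
  obtain ⟨r, hr, hr'⟩ := h1 A.M s id h2
  refine ⟨r, hr, fun x => ?_⟩
  have hx : x ∈ Submodule.span R (s : Set A.M) := hs ▸ trivial
  induction hx using Submodule.span_induction with
  | mem x hx => exact hr' x hx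
  | zero => simp
  | add x y _ _ hx hy => rw [smul_add]; exact N.add_mem hx hy
  | smul a x _ hx => rw [smul_comm]; exact N.smul_mem a hx

/-- The module is killed by `P` and has rank at most one over `R / P`. -/
def Rk (A : GM 𝒜) (P : Ideal R) : Prop :=
  (∀ r ∈ P, ∀ x : A.M, r • x = 0) ∧ ∀ x y : A.M, ∃ a b, (a ∉ P ∨ b ∉ P) ∧ a • x = b • y

theorem Rk.of_inj {A B : GM 𝒜} {P : Ideal R} (h : B.Rk P) (f : Hom A B) (hf : Injective f.f) :
    A.Rk P := by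
  refine ⟨fun r hr x => hf (by rw [map_smul, h.1 r hr, map_zero]), fun x y => ?_⟩
  obtain ⟨a, b, h1, h2⟩ := h.2 (f.f x) (f.f y)
  exact ⟨a, b, h1, hf (by rw [map_smul, map_smul, h2])⟩

theorem Rk.of_surj {A B : GM 𝒜} {P : Ideal R} (h : A.Rk P) (f : Hom A B) (hf : Surjective f.f) :
    B.Rk P := by
  refine ⟨fun r hr x => ?_, fun x y => ?_⟩
  · obtain ⟨x, rfl⟩ := hf x
    rw [← map_smul, h.1 r hr, map_zero]
  · obtain ⟨x, rfl⟩ := hf x
    obtain ⟨y, rfl⟩ := hf y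
    obtain ⟨a, b, h1, h2⟩ := h.2 x y
    exact ⟨a, b, h1, by rw [← map_smul, ← map_smul, h2]⟩

theorem Rk.torsion {A : GM 𝒜} {P : Ideal R} (h : A.Rk P) {m : A.M}
    (hm : ∀ r, r • m = 0 → r ∈ P) (x : A.M) : ∃ a b : R, b ∉ P ∧ a • m = b • x := by
  obtain ⟨a, b, h1, h2⟩ := h.2 m x
  refine ⟨a, b, fun hb => ?_, h2⟩
  exact h1.elim (fun ha => ha (hm a (h2.trans (h.1 b hb x)))) fun h3 => h3 hb

theorem exists_mk {A : GM 𝒜} {N : Submodule R A.M} (hN : A.Hg N) :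
    ∃ q : Hom A (A.qt N), Surjective q.f ∧ ∀ x, q.f x = 0 ↔ x ∈ N := by
  rw [qt_eq hN]
  exact ⟨A.mkQ N hN, A.mkQ_surj N hN, fun _ => mkQ_eq_zero⟩

theorem cyc_gen {P : Ideal R} (hH : P.IsHomogeneous 𝒜) (d : ℤ) :
    ∃ m : (cyc 𝒜 P d).M, (cyc 𝒜 P d).H d m ∧ (∀ r, r • m = 0 ↔ r ∈ P) ∧
      ∀ x, ∃ r : R, r • m = x := by
  obtain ⟨q, hq, hq'⟩ := exists_mk (hg_ideal hH d)
  let u : R →ₗ[R] (cyc 𝒜 P d).M := q.f
  have h1 : ∀ r : R, r • u 1 = u r := fun r => by rw [← map_smul, smul_eq_mul, mul_one]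
  refine ⟨u 1, ?_, fun r => ?_, fun x => ?_⟩
  · have := (H_one (SetLike.one_mem_graded 𝒜) d).map q
    rwa [add_zero] at this
  · rw [h1]
    exact hq' r
  · obtain ⟨x, rfl⟩ := hq x
    exact ⟨x, h1 x⟩

theorem rk_cyc {P : Ideal R} (hH : P.IsHomogeneous 𝒜) (hP : P.IsPrime) (d : ℤ) :
    (cyc 𝒜 P d).Rk P := by
  obtain ⟨m, -, h1, h2⟩ := cyc_gen hH d
  refine ⟨fun r hr x => ?_, fun x y => ?_⟩
  · obtain ⟨s, rfl⟩ := h2 x
    rw [smul_comm, (h1 r).2 hr, smul_zero]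
  · obtain ⟨r, rfl⟩ := h2 x
    obtain ⟨s, rfl⟩ := h2 y
    by_cases hs : s ∈ P
    · exact ⟨0, 1, .inr ((Ideal.ne_top_iff_one _).1 hP.ne_top), by
        rw [zero_smul, (h1 s).2 hs, smul_zero]⟩
    · exact ⟨s, r, .inl hs, smul_comm _ _ _⟩

variable (𝒜) in
/-- A new level of primes `T` above which all primes are in `𝒮`. -/
structure Lev (𝒮 T : Set (Ideal R)) : Prop where
  prime : ∀ P ∈ T, P.IsPrime
  hom : ∀ P ∈ T, P.IsHomogeneous 𝒜
  new : ∀ P ∈ T, P ∉ 𝒮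
  up : ∀ P ∈ T, ∀ P' : Ideal R, P'.IsPrime → P'.IsHomogeneous 𝒜 → P < P' → P' ∈ 𝒮
  gen : ∀ P ∈ T, ∃ y ∈ 𝒜 1, y ∉ P
  cl : ∀ P ∈ 𝒮, ∀ P' : Ideal R, P'.IsPrime → P'.IsHomogeneous 𝒜 → P ≤ P' → P' ∈ 𝒮

variable {T : Set (Ideal R)} (L : Lev 𝒜 𝒮 T)
include L

theorem Lev.in_of_kill {P : Ideal R} (hP : P ∈ T) {A : GM 𝒜} (h1 : ∀ r ∈ P, ∀ x : A.M, r • x = 0)
    {r : R} (hr : r ∉ P) (h2 : ∀ x : A.M, r • x = 0) : A.In 𝒮 := fun P' hP' hH h =>
  L.up P hP P' hP' hH (lt_of_le_of_ne (fun a ha => h a (h1 a ha)) fun h3 => hr (h3 ▸ h r h2))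

theorem Lev.in_qt {P : Ideal R} (hP : P ∈ T) {A : GM 𝒜} (h1 : ∀ r ∈ P, ∀ x : A.M, r • x = 0)
    {N : Submodule R A.M} (hN : A.Hg N) (h2 : ∀ x, ∃ r, r ∉ P ∧ r • x ∈ N) : (A.qt N).In 𝒮 := by
  obtain ⟨r, hr, h3⟩ := exists_kill (L.prime P hP) fun _ x _ => h2 x
  exact GM.in_qt hN fun P' hP' hH h => L.up P hP P' hP' hH (lt_of_le_of_ne
    (fun a ha => h a fun m => h1 a ha m ▸ N.zero_mem) fun h4 => hr (h4 ▸ h r h3))

theorem Lev.in_sup {P : Ideal R} (hP : P ∈ T) {i : ℤ} {a : R} (ha : a ∈ 𝒜 i) (haP : a ∉ P)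
    (d : ℤ) : (cyc 𝒜 (P ⊔ Ideal.span {a}) d).In 𝒮 :=
  in_cyc (hom_sup (L.hom P hP) ha) d fun P' hP' hH h => L.up P hP P' hP' hH (lt_of_le_of_ne
    (le_sup_left.trans h) fun h1 =>
      haP (h1 ▸ h (Ideal.mem_sup_right (Ideal.mem_span_singleton_self a))))

theorem Lev.in_span {P : Ideal R} (hP : P ∈ T) {A : GM 𝒜} (h : A.Rk P) {d : ℤ} {m : A.M}
    (hm : A.H d m) (h1 : ∀ r, r • m = 0 → r ∈ P) : (A.qt (R ∙ m)).In 𝒮 :=
  L.in_qt hP h.1 hm.hg_span fun x => by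
    obtain ⟨a, b, hb, h2⟩ := h.torsion h1 x
    exact ⟨b, hb, Submodule.mem_span_singleton.2 ⟨a, h2⟩⟩

theorem Lev.exists_good {P : Ideal R} (hP : P ∈ T) {A : GM 𝒜} (h : A.Rk P) (h1 : ¬ A.In 𝒮) :
    ∃ (k : ℕ) (m : A.M), A.H k m ∧ ∀ r, r • m = 0 → r ∈ P := by
  have h2 : ∃ j x, A.H j x ∧ ∀ r, r • x = 0 → r ∈ P := by
    by_contra hc
    obtain ⟨r, hr, h3⟩ := exists_kill (N := ⊥) (L.prime P hP) fun j x hx => by
      by_contra h4
      exact hc ⟨j, x, hx, fun r hr => by_contra fun h5 => h4 ⟨r, h5, hr⟩⟩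
    exact h1 (L.in_of_kill hP h.1 hr h3)
  obtain ⟨j, x, hx, h3⟩ := h2
  obtain ⟨y, hy, hyP⟩ := L.gen P hP
  refine ⟨(j.natAbs + j).toNat, y ^ j.natAbs • x, ?_, fun r hr => ?_⟩
  · rw [Int.toNat_of_nonneg (by omega)]
    exact hx.smul (pow_mem hy _)
  · rw [← mul_smul] at hr
    exact ((L.prime P hP).mem_or_mem (h3 _ hr)).resolve_right
      fun h4 => hyP ((L.prime P hP).mem_of_pow_mem _ h4)

variable {τ : GM 𝒜 → Q} (hτ : Add 𝒮 τ)
  (H1 : ∀ P ∈ T, ∀ (i : ℤ) (a b : R), a ∈ 𝒜 i → b ∈ 𝒜 i → a ∉ P → b ∉ P →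
    τ (cyc 𝒜 (P ⊔ Ideal.span {a}) 0) = τ (cyc 𝒜 (P ⊔ Ideal.span {b}) 0))
include hτ H1

theorem Lev.mul_good {P : Ideal R} (hP : P ∈ T) {A : GM 𝒜} (h : A.Rk P) {k K : ℕ} {m : A.M}
    (hm : A.H k m) (h1 : ∀ r, r • m = 0 → r ∈ P) {y : R} (hy : y ∈ 𝒜 1) (hyP : y ∉ P) {c : R}
    (hc : c ∈ 𝒜 ((K : ℤ) - k)) (hcP : c ∉ P) :
    τ (A.qt (R ∙ c • m)) - τ (cyc 𝒜 (P ⊔ Ideal.span {y ^ K}) 0) =
      τ (A.qt (R ∙ m)) - τ (cyc 𝒜 (P ⊔ Ideal.span {y ^ k}) 0) := by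
  have hp := L.prime P hP
  have hyk : ∀ n : ℕ, y ^ n ∉ P := fun n h4 => hyP (hp.mem_of_pow_mem _ h4)
  have h2 : c * y ^ k ∈ 𝒜 K := by
    simpa using SetLike.mul_mem_graded hc (pow_mem hy k)
  have h3 : c * y ^ k ∉ P := fun h4 => (hp.mem_or_mem h4).elim hcP (hyk k)
  have h4 := hτ _ _ _ (ses_mul hp (L.hom P hP) hc (pow_mem hy k) (hyk k) 0) (L.in_sup hP h2 h3 0)
  have h5 := hτ _ _ _ (ses_cyc hm (hm.smul hc).hg_span hm.hg_span (I := P ⊔ Ideal.span {c})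
    (fun r => ?_) fun z => ?_) (L.in_span hP h (hm.smul hc) fun r hr => ?_)
  · rw [H1 P hP K _ _ (pow_mem hy K) h2 (hyk K) h3, h4, h5, zero_add]
    abel
  · rw [mem_sup_span, Submodule.mem_span_singleton]
    refine exists_congr fun s => ⟨fun h6 => h1 _ ?_, fun h6 => ?_⟩
    · rw [sub_smul, mul_smul, h6, sub_self]
    · have := h.1 _ h6 m
      rw [sub_smul, mul_smul, sub_eq_zero] at this
      exact this.symm
  · rw [Submodule.mem_span_singleton]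
    constructor
    · rintro ⟨r, rfl⟩
      exact ⟨r, by simp⟩
    · rintro ⟨r, hr⟩
      obtain ⟨s, hs⟩ := Submodule.mem_span_singleton.1 hr
      exact ⟨s * c + r, by rw [add_smul, mul_smul, hs, sub_add_cancel]⟩
  · rw [← mul_smul] at hr
    exact (hp.mem_or_mem (h1 _ hr)).resolve_right hcP

theorem Lev.indep {P : Ideal R} (hP : P ∈ T) {A : GM 𝒜} (h : A.Rk P) {k k' : ℕ} {m m' : A.M}
    (hm : A.H k m) (h1 : ∀ r, r • m = 0 → r ∈ P) (hm' : A.H k' m') (h1' : ∀ r, r • m' = 0 → r ∈ P)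
    {y : R} (hy : y ∈ 𝒜 1) (hyP : y ∉ P) :
    τ (A.qt (R ∙ m)) - τ (cyc 𝒜 (P ⊔ Ideal.span {y ^ k}) 0) =
      τ (A.qt (R ∙ m')) - τ (cyc 𝒜 (P ⊔ Ideal.span {y ^ k'}) 0) := by
  have hp := L.prime P hP
  obtain ⟨a, b, hb, h2⟩ := h.torsion h1 m'
  obtain ⟨i, hi⟩ := exists_proj (𝒜 := 𝒜) hb
  have h3 := congrArg (A.π (i + k')) h2
  rw [hm.π_smul, hm'.π_smul, add_sub_cancel_right] at h3
  have h4 : GradedRing.proj 𝒜 (i + k' - k) a ∉ P := fun h5 =>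
    hi (h1' _ (h3.symm.trans (h.1 _ h5 m)))
  have hyk : y ^ i.natAbs ∉ P := fun h4 => hyP (hp.mem_of_pow_mem _ h4)
  obtain ⟨K, hK⟩ : ∃ K : ℕ, (K : ℤ) = i.natAbs + i + k' := ⟨_, Int.toNat_of_nonneg (by omega)⟩
  rw [← L.mul_good hτ H1 hP h hm h1 hy hyP (K := K)
      (c := y ^ i.natAbs * GradedRing.proj 𝒜 (i + k' - k) a) ?_
      fun h5 => (hp.mem_or_mem h5).elim hyk h4,
    ← L.mul_good hτ H1 hP h hm' h1' hy hyP (K := K) (c := y ^ i.natAbs * GradedRing.proj 𝒜 i b) ?_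
      fun h5 => (hp.mem_or_mem h5).elim hyk hi, mul_smul, mul_smul, h3]
  · convert SetLike.mul_mem_graded (pow_mem hy i.natAbs) (proj_mem i b) using 2
    omega
  · convert SetLike.mul_mem_graded (pow_mem hy i.natAbs) (proj_mem (i + k' - k) a) using 2
    omega

theorem Lev.exists_seed (lam : Ideal R → Q) : ∃ t : GM 𝒜 → Q, (∀ A : GM 𝒜, A.In 𝒮 → t A = τ A) ∧
    ∃ e : Ideal R → ℕ → Q, (∀ P ∈ T, e P 0 = lam P) ∧ ∀ P ∈ T, ∀ A : GM 𝒜, A.Rk P →
      ∀ (k : ℕ) (m : A.M), A.H k m → (∀ r, r • m = 0 → r ∈ P) →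
        t A = τ (A.qt (R ∙ m)) + e P k := by
  classical
  have hy : ∀ P : Ideal R, ∃ y, P ∈ T → y ∈ 𝒜 1 ∧ y ∉ P := fun P => by
    by_cases h : P ∈ T
    · obtain ⟨y, h1, h2⟩ := L.gen P h
      exact ⟨y, fun _ => ⟨h1, h2⟩⟩
    · exact ⟨0, fun h1 => absurd h1 h⟩
  choose y hy using hy
  let G : ∀ A : GM 𝒜, Ideal R × ℕ × A.M → Prop := fun A p =>
    p.1 ∈ T ∧ A.Rk p.1 ∧ A.H p.2.1 p.2.2 ∧ ∀ r, r • p.2.2 = 0 → r ∈ p.1
  let e : Ideal R → ℕ → Q := fun P k => lam P - τ (cyc 𝒜 (P ⊔ Ideal.span {y P ^ k}) 0)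
  refine ⟨fun A => if h : ∃ p, G A p then τ (A.qt (R ∙ h.choose.2.2)) + e h.choose.1 h.choose.2.1
    else τ A, fun A hA => dif_neg ?_, e, fun P hP => ?_, fun P hP A h k m hm h1 => ?_⟩
  · rintro ⟨p, h1, -, -, h2⟩
    exact L.new _ h1 (hA _ (L.prime _ h1) (L.hom _ h1) fun r hr => h2 r (hr _))
  · change lam P - _ = _
    rw [hτ.zero, sub_zero]
    refine subsingleton_qt (hg_ideal (hom_sup (L.hom P hP) (pow_mem (hy P hP).1 0)) 0)
      fun m : R => ?_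
    exact (mem_sup_span (y := m)).2 ⟨m, by simp⟩
  · have h2 : ∃ p, G A p := ⟨(P, k, m), hP, h, hm, h1⟩
    change dite _ _ _ = _
    rw [dif_pos h2]
    obtain ⟨-, h4, h5, h6⟩ := h2.choose_spec
    have h7 : h2.choose.1 = P :=
      le_antisymm (fun r hr => h1 r (h4.1 r hr m)) fun r hr => h6 r (h.1 r hr _)
    rw [h7] at h6 ⊢
    have h8 := L.indep hτ H1 hP h h5 h6 hm h1 (hy P hP).1 (hy P hP).2
    simp only [e]
    rw [sub_eq_iff_eq_add] at h8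
    rw [h8]
    abel

theorem Lev.step [IsNoetherianRing R] (lam : Ideal R → Q) :
    ∃ τ' : GM 𝒜 → Q, Add (𝒮 ∪ T) τ' ∧ (∀ A : GM 𝒜, A.In 𝒮 → τ' A = τ A) ∧
      ∀ P ∈ T, τ' (cyc 𝒜 P 0) = lam P := by
  obtain ⟨t, ht, e, he, hte⟩ := L.exists_seed hτ H1 lam
  let s : (exa 𝒜).Seed Q :=
    { C := fun A => A.In 𝒮 ∨ ∃ P ∈ T, A.Rk P
      t := t
      zc := fun h => .inl (in_of_subsingleton h)
      zt := fun h => (ht _ (in_of_subsingleton h)).trans (hτ.zero h)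
      sub := fun ⟨f, _, hf, _⟩ h => h.imp (·.of_inj f hf) fun ⟨P, hP, h⟩ => ⟨P, hP, h.of_inj f hf⟩
      quo := fun ⟨_, g, _, hg, _⟩ h =>
        h.imp (·.of_surj g hg) fun ⟨P, hP, h⟩ => ⟨P, hP, h.of_surj g hg⟩
      add := by
        intro A B C h hB
        by_cases h1 : B.In 𝒮
        · rw [ht _ h1, ht _ (SES.in_left h h1), ht _ (SES.in_right h h1), hτ _ _ _ h h1]
        obtain ⟨P, hP, hB⟩ := hB.resolve_left h1
        obtain ⟨f, g, hf, hg, hfg⟩ := h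
        have hA := hB.of_inj f hf
        have hC := hB.of_surj g hg
        by_cases h2 : A.In 𝒮
        · obtain ⟨k, m, hm, h3⟩ := L.exists_good hP hB h1
          have h4 : ∀ r, r • g.f m = 0 → r ∈ P := by
            intro r hr
            obtain ⟨x, hx⟩ := (hfg (r • m)).1 (by rw [map_smul, hr])
            by_contra h5
            refine L.new P hP (h2 P (L.prime P hP) (L.hom P hP) fun s hs => ?_)
            refine ((L.prime P hP).mem_or_mem (h3 (s * r) ?_)).resolve_right h5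
            rw [mul_smul, ← hx, ← map_smul, hs, map_zero]
          have h5 : SES A (B.qt (R ∙ m)) (C.qt (R ∙ g.f m)) := by
            rw [qt_eq hm.hg_span, qt_eq (hm.map g).hg_span]
            obtain ⟨v, hv⟩ := exists_desc (B.mkQ _ hm.hg_span) (B.mkQ_surj _ _)
              ((C.mkQ _ (hm.map g).hg_span).comp g) fun x hx => mkQ_eq_zero.2 (by
                obtain ⟨r, rfl⟩ := Submodule.mem_span_singleton.1 (mkQ_eq_zero.1 hx)
                exact Submodule.mem_span_singleton.2 ⟨r, (g.f.map_smul r m).symm⟩)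
            refine ⟨(B.mkQ _ hm.hg_span).comp f, v, Hom.inj _ fun x hx => ?_, fun z => ?_,
              fun y => ?_⟩
            · obtain ⟨r, hr⟩ := Submodule.mem_span_singleton.1 (mkQ_eq_zero.1 hx)
              have h6 := h4 r ((g.f.map_smul r m).symm.trans ((hfg _).2 ⟨x, hr.symm⟩))
              exact hf (hr.symm.trans ((hB.1 r h6 m).trans (map_zero _).symm))
            · obtain ⟨z, rfl⟩ := C.mkQ_surj _ _ z
              obtain ⟨y, rfl⟩ := hg z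
              exact ⟨_, hv y⟩
            · obtain ⟨y, rfl⟩ := B.mkQ_surj _ _ y
              rw [hv]
              refine mkQ_eq_zero.trans ⟨fun h6 => ?_, ?_⟩
              · obtain ⟨r, hr⟩ := Submodule.mem_span_singleton.1 h6
                obtain ⟨x, hx⟩ := (hfg (y - r • m)).1 (by rw [map_sub, map_smul, hr, sub_self])
                refine ⟨x, (Submodule.Quotient.eq _).2 ?_⟩
                exact Submodule.mem_span_singleton.2 ⟨-r, by rw [hx]; simp⟩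
              · rintro ⟨x, hx⟩
                obtain ⟨r, hr⟩ := Submodule.mem_span_singleton.1 ((Submodule.Quotient.eq _).1 hx)
                refine Submodule.mem_span_singleton.2 ⟨-r, ?_⟩
                rw [neg_smul, ← map_smul, hr, map_sub, (hfg _).2 ⟨x, rfl⟩, zero_sub, neg_neg]
          rw [hte P hP B hB k m hm h3, hte P hP C hC k _ (hm.map g) h4, ht _ h2,
            hτ _ _ _ h5 (L.in_span hP hB hm h3), add_assoc]
        · obtain ⟨k, m, hm, h3⟩ := L.exists_good hP hA h2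
          have h4 : ∀ r, r • f.f m = 0 → r ∈ P := fun r hr =>
            h3 r (hf (by rw [map_smul, hr, map_zero]))
          have h5 : SES (A.qt (R ∙ m)) (B.qt (R ∙ f.f m)) C := by
            rw [qt_eq hm.hg_span, qt_eq (hm.map f).hg_span]
            obtain ⟨u, hu⟩ := exists_desc (A.mkQ _ hm.hg_span) (A.mkQ_surj _ _)
              ((B.mkQ _ (hm.map f).hg_span).comp f) fun x hx => mkQ_eq_zero.2 (by
                obtain ⟨r, rfl⟩ := Submodule.mem_span_singleton.1 (mkQ_eq_zero.1 hx)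
                exact Submodule.mem_span_singleton.2 ⟨r, (f.f.map_smul r m).symm⟩)
            obtain ⟨v, hv⟩ := exists_desc (B.mkQ _ (hm.map f).hg_span) (B.mkQ_surj _ _) g
              fun x hx => by
                obtain ⟨r, rfl⟩ := Submodule.mem_span_singleton.1 (mkQ_eq_zero.1 hx)
                exact (hfg _).2 ⟨r • m, f.f.map_smul r m⟩
            refine ⟨u, v, Hom.inj _ fun x hx => ?_, fun z => ?_, fun y => ?_⟩
            · obtain ⟨x, rfl⟩ := A.mkQ_surj _ _ x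
              obtain ⟨r, hr⟩ := Submodule.mem_span_singleton.1
                (mkQ_eq_zero.1 ((hu x).symm.trans hx))
              exact mkQ_eq_zero.2 (Submodule.mem_span_singleton.2
                ⟨r, hf ((f.f.map_smul r m).trans hr)⟩)
            · obtain ⟨y, rfl⟩ := hg z
              exact ⟨_, hv y⟩
            · obtain ⟨y, rfl⟩ := B.mkQ_surj _ _ y
              rw [hv, hfg]
              constructor
              · rintro ⟨x, rfl⟩
                exact ⟨_, hu x⟩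
              · rintro ⟨x, hx⟩
                obtain ⟨x, rfl⟩ := A.mkQ_surj _ _ x
                obtain ⟨r, hr⟩ := Submodule.mem_span_singleton.1
                  ((Submodule.Quotient.eq _).1 ((hu x).symm.trans hx))
                exact ⟨x - r • m, by rw [map_sub, map_smul, hr, sub_sub_cancel]⟩
          have h6 := L.in_span hP hB (hm.map f) h4
          rw [hte P hP B hB k _ (hm.map f) h4, hte P hP A hA k m hm h3, ht _ (h5.in_right h6),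
            hτ _ _ _ h5 h6]
          abel }
  have hC : ∀ A : GM 𝒜, s.C A → s.Fil A := fun A hA =>
    Exa.Seed.Fil.step (N := A.sub ⊥ A.hg_bot)
      ⟨A.incl _ _, Hom.id A, Subtype.val_injective, surjective_id, fun y =>
        ⟨fun h => ⟨0, h.symm⟩, fun ⟨x, hx⟩ => hx.symm.trans x.2⟩⟩
      (Exa.Seed.Fil.zero (inferInstanceAs (Subsingleton (⊥ : Submodule R A.M)))) hA
  have hF : ∀ A : GM 𝒜, A.In (𝒮 ∪ T) → s.Fil A := fun A hA => hA.induction (Φ := s.Fil)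
    (fun B hB => Exa.Seed.Fil.zero hB) fun P d B C hP hH hPs h _ ⟨w, hw⟩ => by
      obtain ⟨v, hv⟩ := hC (cyc 𝒜 P d) (hPs.imp
        (fun h2 => in_cyc hH d (L.cl P h2)) fun h2 => ⟨P, h2, rk_cyc hH hP d⟩)
      exact ⟨_, hw.ext hv h⟩
  refine ⟨s.ext, fun A B C h hB => (hF B hB).add h, fun A hA => ?_, fun P hP => ?_⟩
  · exact ((hC A (.inl hA)).ext_eq (.inl hA)).trans (ht A hA)
  · have h1 := rk_cyc (L.hom P hP) (L.prime P hP) 0
    obtain ⟨m, hm, h2, h3⟩ := cyc_gen (L.hom P hP) 0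
    refine ((hC _ (.inr ⟨P, hP, h1⟩)).ext_eq (.inr ⟨P, hP, h1⟩)).trans ?_
    refine (hte P hP _ h1 0 m hm fun r hr => (h2 r).1 hr).trans ?_
    rw [he P hP, hτ.zero, zero_add]
    exact subsingleton_qt hm.hg_span fun x => Submodule.mem_span_singleton.2 (h3 x)

end GM

end Vale.Agent.P297Z.Tau
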