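import Mathlib.Algebra.Category.Grp.Injective
import Mathlib.Data.Finsupp.Order
import Vale.Agent.P297Z.Tau.Step

/-!
# The additive function on a surface
-/

set_option linter.unusedSectionVars false

namespace Vale.Agent.P297Z.Tau

open Function

variable {R : Type} [CommRing R] {σ : Type} [SetLike σ R] [AddSubgroupClass σ R]

namespace GM

variable {𝒜 : ℤ → σ} [GradedRing 𝒜] {𝒮 T : Set (Ideal R)} {Q : Type*} [AddCommGroup Q]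

theorem Lev.shift (L : Lev 𝒜 𝒮 T) {τ : GM 𝒜 → Q} (hτ : Add (𝒮 ∪ T) τ)
    (h0 : ∀ A : GM 𝒜, A.In 𝒮 → τ A = 0) {P : Ideal R} (hP : P ∈ T) (d : ℤ) :
    τ (cyc 𝒜 P d) = τ (cyc 𝒜 P 0) := by
  obtain ⟨y, hy, hyP⟩ := L.gen P hP
  have h1 : ∀ e : ℤ, τ (cyc 𝒜 P (e + 1)) = τ (cyc 𝒜 P e) := by
    intro e
    have h2 := hτ _ _ _ (ses_ideal hy e (L.hom P hP) (hom_sup (L.hom P hP) hy) (I := P)
      (fun r => by rw [(L.prime P hP).mul_mem_iff_mem_or_mem, or_iff_left hyP])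
      fun _ => mem_sup_span) (in_cyc (L.hom P hP) e fun P' hP' hH h =>
        h.eq_or_lt.elim (fun h3 => .inr (h3 ▸ hP)) fun h3 => .inl (L.up P hP P' hP' hH h3))
    rw [h2, h0 _ (L.in_sup hP hy hyP e), add_zero]
  induction d using Int.induction_on with
  | zero => rfl
  | succ i ih => rw [h1, ih]
  | pred i ih => rw [← h1, sub_add_cancel, ih]

variable [IsNoetherianRing R]

/-- The multiplicities of the primes of the top level. -/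
theorem Lev.exists_cycle (L : Lev 𝒜 𝒮 T) : ∃ z : GM 𝒜 → (Ideal R →₀ ℤ), Add (𝒮 ∪ T) z ∧
    (∀ A : GM 𝒜, A.In 𝒮 → z A = 0) ∧ (∀ P ∈ T, ∀ d, z (cyc 𝒜 P d) = Finsupp.single P 1) ∧
    (∀ A : GM 𝒜, A.In (𝒮 ∪ T) → 0 ≤ z A) ∧
    ∀ (A : GM 𝒜) (P : Ideal R) (r : R), A.In (𝒮 ∪ T) → r ∉ P → (∀ m : A.M, r • m = 0) →
      z A P = 0 := by
  obtain ⟨z, h1, h2, h3⟩ := L.step (τ := fun _ => (0 : Ideal R →₀ ℤ))
    (fun _ _ _ _ _ => (add_zero _).symm) (fun _ _ _ _ _ _ _ _ _ => rfl) fun P => Finsupp.single P 1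
  have h4 : ∀ P ∈ T, ∀ d, z (cyc 𝒜 P d) = Finsupp.single P 1 := fun P hP d =>
    (L.shift h1 h2 hP d).trans (h3 P hP)
  refine ⟨z, h1, h2, h4, fun A hA => ?_, fun A P r hA hr h5 => ?_⟩
  · refine hA.induction (Φ := fun A => 0 ≤ z A) (fun B hB => (h1.zero hB).ge)
      fun P d B C hP hH hPs h hB ih => ?_
    rw [h1 _ _ _ h hB]
    refine add_nonneg ?_ ih
    rcases hPs with h6 | h6
    · exact (h2 _ (in_cyc hH d (L.cl P h6))).ge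
    · rw [h4 P h6]
      exact Finsupp.single_nonneg.2 zero_le_one
  · have h6 : A.In ((𝒮 ∪ T) ∩ {P' | r ∈ P'}) := fun P' hP' hH h => ⟨hA P' hP' hH h, h r h5⟩
    refine h6.induction (Φ := fun A => z A P = 0) (fun B hB => by rw [h1.zero hB]; rfl)
      fun P' d B C _ hH hPs h hB ih => ?_
    rw [h1 _ _ _ h (hB.mono Set.inter_subset_left), Finsupp.add_apply, ih, add_zero]
    rcases hPs.1 with h7 | h7
    · rw [h2 _ (in_cyc hH d (L.cl P' h7))]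
      rfl
    · rw [h4 P' h7]
      exact Finsupp.single_eq_of_ne fun h8 => hr (h8 ▸ hPs.2)

theorem exists_ses_cyc {I J : Ideal R} (hI : I.IsHomogeneous 𝒜) (hJ : J.IsHomogeneous 𝒜)
    (h : I ≤ J) (d : ℤ) : ∃ K, SES K (cyc 𝒜 I d) (cyc 𝒜 J d) := by
  obtain ⟨q, hq, hq'⟩ := exists_mk (hg_ideal hI d)
  obtain ⟨p, hp, hp'⟩ := exists_mk (hg_ideal hJ d)
  obtain ⟨u, hu⟩ := exists_desc q hq p fun x hx => (hp' x).2 (h ((hq' x).1 hx))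
  refine ⟨_, ses_ker u fun y => ?_⟩
  obtain ⟨x, rfl⟩ := hp y
  exact ⟨_, hu x⟩

variable (𝒜) in
/-- The principal cyclic module `R / a`. -/
noncomputable abbrev pc (a : R) (d : ℤ) : GM 𝒜 := cyc 𝒜 (⊥ ⊔ Ideal.span {a}) d

theorem Lev.add_pc {𝒮 : Set (Ideal R)} (L : Lev 𝒜 𝒮 {⊥}) {τ : GM 𝒜 → Q} (hτ : Add 𝒮 τ) {i j : ℤ}
    {a b : R} (ha : a ∈ 𝒜 i) (hb : b ∈ 𝒜 j) (ha0 : a ≠ 0) (hb0 : b ≠ 0) (e : ℤ) :
    τ (pc 𝒜 (a * b) e) = τ (pc 𝒜 a (e + j)) + τ (pc 𝒜 b e) :=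
  hτ _ _ _ (ses_mul (L.prime ⊥ rfl) (L.hom ⊥ rfl) ha hb hb0 e)
    (L.in_sup rfl (SetLike.mul_mem_graded ha hb)
      (fun h => ((L.prime ⊥ rfl).mem_or_mem h).elim ha0 hb0) e)

/-- The extension from the curves to the surface. -/
theorem Lev.top [DivisibleBy Q ℤ] (L : Lev 𝒜 𝒮 T) (L' : Lev 𝒜 (𝒮 ∪ T) {⊥}) {τ : GM 𝒜 → Q}
    (hτ : Add (𝒮 ∪ T) τ)
    (hV : ∀ P ∈ T, ∀ (i : ℤ) (a b : R), a ∈ 𝒜 i → b ∈ 𝒜 i → ∃ (j : ℤ) (s u : R), s ∈ 𝒜 j ∧ u ∈ 𝒜 j ∧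
      s ∉ P ∧ (a * s = b * u ∨ b * s = a * u))
    (hN : ∀ (i : ℤ) (a b : R), a ∈ 𝒜 i → b ∈ 𝒜 i → a ≠ 0 → b ≠ 0 →
      (∀ P ∈ T, ∃ (j : ℤ) (s u : R), s ∈ 𝒜 j ∧ u ∈ 𝒜 j ∧ s ∉ P ∧ u ∉ P ∧ a * s = b * u) →
      Ideal.span {a} = Ideal.span {b}) :
    ∃ τ' : GM 𝒜 → Q, Add (𝒮 ∪ T ∪ {⊥}) τ' ∧ ∀ A : GM 𝒜, A.In 𝒮 → τ' A = τ A := by
  obtain ⟨z, hz, hz0, hz1, hz2, hz4⟩ := L.exists_cycle
  have hp := L'.prime ⊥ rfl
  have hm : ∀ {a b : R}, a ≠ 0 → b ≠ 0 → a * b ≠ 0 := fun ha hb h =>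
    (hp.mem_or_mem h).elim ha hb
  have hin : ∀ {i : ℤ} {a : R}, a ∈ 𝒜 i → a ≠ 0 → ∀ d, (pc 𝒜 a d).In (𝒮 ∪ T) :=
    fun ha ha0 d => L'.in_sup rfl ha ha0 d
  let w : GM 𝒜 → Q × (Ideal R →₀ ℤ) := fun A => (τ A, z A)
  have hw : Add (𝒮 ∪ T) w := fun A B C h hB => Prod.ext (hτ A B C h hB) (hz A B C h hB)
  let Δ : AddSubgroup (Q × (Ideal R →₀ ℤ)) :=
    { carrier := {x | ∃ (i : ℤ) (a b : R), a ∈ 𝒜 i ∧ b ∈ 𝒜 i ∧ a ≠ 0 ∧ b ≠ 0 ∧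
        x = w (pc 𝒜 a 0) - w (pc 𝒜 b 0)}
      zero_mem' := ⟨0, 1, 1, SetLike.one_mem_graded 𝒜, SetLike.one_mem_graded 𝒜,
        (Ideal.ne_top_iff_one _).1 hp.ne_top, (Ideal.ne_top_iff_one _).1 hp.ne_top,
        (sub_self _).symm⟩
      neg_mem' := by
        rintro _ ⟨i, a, b, ha, hb, ha0, hb0, rfl⟩
        exact ⟨i, b, a, hb, ha, hb0, ha0, neg_sub _ _⟩
      add_mem' := by
        rintro _ _ ⟨i, a, b, ha, hb, ha0, hb0, rfl⟩ ⟨j, c, d, hc, hd, hc0, hd0, rfl⟩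
        refine ⟨i + j, a * c, b * d, SetLike.mul_mem_graded ha hc, SetLike.mul_mem_graded hb hd,
          hm ha0 hc0, hm hb0 hd0, ?_⟩
        have h1 := L'.add_pc hw hc ha hc0 ha0 0
        have h2 := L'.add_pc hw hc hb hc0 hb0 0
        have h3 := L'.add_pc hw hb hc hb0 hc0 0
        have h4 := L'.add_pc hw hb hd hb0 hd0 0
        rw [mul_comm c] at h1 h2
        rw [h1, h4, eq_sub_of_add_eq (h2.symm.trans h3)]
        abel }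
  have key : ∀ (P : Ideal R) (i j : ℤ) (a b s u : R), P ∈ T → a ∈ 𝒜 i → b ∈ 𝒜 i → a ≠ 0 → b ≠ 0 →
      s ∈ 𝒜 j → u ∈ 𝒜 j → s ∉ P → a * s = b * u → z (pc 𝒜 a 0) = z (pc 𝒜 b 0) → u ∉ P := by
    intro P i j a b s u hP ha hb ha0 hb0 hs hu hsP h h1 huP
    have hs0 : s ≠ 0 := fun h2 => hsP (h2 ▸ P.zero_mem)
    have hu0 : u ≠ 0 := fun h2 => hm ha0 hs0 (by rw [h, h2, mul_zero])
    have h2 := L'.add_pc hz hs ha hs0 ha0 0
    rw [mul_comm, h, mul_comm, L'.add_pc hz hu hb hu0 hb0 0, h1, add_left_inj] at h2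
    have h3 : z (pc 𝒜 s (0 + i)) P = 0 := by
      refine hz4 _ P s (hin hs hs0 _) hsP fun m => ?_
      obtain ⟨m₀, -, h3, h4⟩ := cyc_gen (hom_sup (L'.hom ⊥ rfl) hs) (0 + i)
      obtain ⟨r, rfl⟩ := h4 m
      rw [smul_comm, (h3 s).2 (Ideal.mem_sup_right (Ideal.mem_span_singleton_self s)), smul_zero]
    obtain ⟨K, hK⟩ := exists_ses_cyc (hom_sup (L'.hom ⊥ rfl) hu) (L.hom P hP)
      (sup_le bot_le ((Ideal.span_singleton_le_iff_mem _).2 huP)) (0 + i)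
    have h4 := hz2 K (hK.in_left (hin hu hu0 _)) P
    rw [← h2, hz _ _ _ hK (hin hu hu0 _), hz1 P hP, Finsupp.add_apply, Finsupp.single_eq_same] at h3
    change 0 ≤ z K P at h4
    omega
  have hinj : Injective ((AddMonoidHom.snd Q (Ideal R →₀ ℤ)).comp Δ.subtype) := by
    rw [injective_iff_map_eq_zero]
    rintro ⟨_, i, a, b, ha, hb, ha0, hb0, rfl⟩ h
    have h1 : z (pc 𝒜 a 0) = z (pc 𝒜 b 0) := sub_eq_zero.1 h
    have h2 := hN i a b ha hb ha0 hb0 fun P hP => by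
      obtain ⟨j, s, u, hs, hu, hsP, h2 | h2⟩ := hV P hP i a b ha hb
      · exact ⟨j, s, u, hs, hu, hsP, key P i j a b s u hP ha hb ha0 hb0 hs hu hsP h2 h1, h2⟩
      · exact ⟨j, u, s, hu, hs, key P i j b a s u hP hb ha hb0 ha0 hs hu hsP h2 h1.symm, hsP,
          h2.symm⟩
    refine Subtype.ext (sub_eq_zero.2 ?_)
    rw [pc, pc, h2]
  obtain ⟨lam, hlam⟩ := (Module.Baer.of_divisible Q).extension_property_addMonoidHom _ hinj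
    ((AddMonoidHom.fst Q (Ideal R →₀ ℤ)).comp Δ.subtype)
  obtain ⟨τ', h1, h2, -⟩ := L'.step (τ := fun A => τ A - lam (z A))
    (fun A B C h hB => by
      simp only [hτ A B C h hB, hz A B C h hB, map_add]
      abel)
    (by
      rintro _ rfl i a b ha hb ha0 hb0
      have h1 := DFunLike.congr_fun hlam ⟨_, i, a, b, ha, hb, ha0, hb0, rfl⟩
      change lam (z _ - z _) = τ _ - τ _ at h1
      rw [map_sub] at h1
      rw [sub_eq_sub_iff_sub_eq_sub, h1]) 0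
  refine ⟨τ', h1, fun A hA => ?_⟩
  rw [h2 A (hA.mono Set.subset_union_left), hz0 A hA, map_zero, sub_zero]

end GM

end Vale.Agent.P297Z.Tau
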