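import Mathlib.Algebra.Group.Basic
import Mathlib.Tactic.Abel

/-!
# Dévissage of additive functions
-/

namespace Vale.Agent.P297Z.Tau

/-- An abstract calculus of short exact sequences. -/
structure Exa (O : Type*) where
  /-- there is a short exact sequence `0 → A → B → C → 0` -/
  S : O → O → O → Prop
  /-- the zero objects -/
  Z : O → Prop
  zl : ∀ {A B C}, S A B C → Z B → Z A
  zr : ∀ {A B C}, S A B C → Z B → Z C
  cross : ∀ {M₁ M A N P}, S M₁ M A → S N M P →
    ∃ N₁ A₁ P₁ A₂, S N₁ N A₁ ∧ S N₁ M₁ P₁ ∧ S P₁ P A₂ ∧ S A₁ A A₂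
  assoc : ∀ {N M P P₁ A}, S N M P → S P₁ P A → ∃ M₁, S N M₁ P₁ ∧ S M₁ M A

namespace Exa

variable {O : Type*} (E : Exa O) {Q : Type*} [AddCommGroup Q]

/-- A class closed under subobjects and quotients, with an additive function. -/
structure Seed (Q : Type*) [AddCommGroup Q] where
  /-- the class -/
  C : O → Prop
  /-- the function -/
  t : O → Q
  zc : ∀ {A}, E.Z A → C A
  zt : ∀ {A}, E.Z A → t A = 0
  sub : ∀ {A B D}, E.S A B D → C B → C A
  quo : ∀ {A B D}, E.S A B D → C B → C D
  add : ∀ {A B D}, E.S A B D → C B → t B = t A + t D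

variable {E}

/-- The sum of the function over the quotients of a filtration. -/
inductive Seed.Val (s : E.Seed Q) : O → Q → Prop
  | zero {M} : E.Z M → s.Val M 0
  | step {N M A v} : E.S N M A → s.Val N v → s.C A → s.Val M (v + s.t A)

namespace Seed

variable {s : E.Seed Q}

theorem Val.ext {P : O} {w : Q} (hP : s.Val P w) :
    ∀ {N M : O} {v : Q}, s.Val N v → E.S N M P → s.Val M (v + w) := by
  induction hP with
  | zero hz =>
    intro N M v hN h
    have := Val.step h hN (s.zc hz)
    rwa [s.zt hz] at this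
  | step h1 _ hA ih =>
    intro N M v hN h
    obtain ⟨M₁, h2, h3⟩ := E.assoc h h1
    have := Val.step h3 (ih hN h2) hA
    rwa [add_assoc] at this

theorem Val.split {M : O} {u : Q} (hM : s.Val M u) :
    ∀ {N P : O}, E.S N M P → ∃ v w, s.Val N v ∧ s.Val P w ∧ u = v + w := by
  induction hM with
  | zero hz =>
    intro N P h
    exact ⟨0, 0, .zero (E.zl h hz), .zero (E.zr h hz), (add_zero _).symm⟩
  | step h1 _ hA ih =>
    intro N P h
    obtain ⟨N₁, A₁, P₁, A₂, h2, h3, h4, h5⟩ := E.cross h1 h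
    obtain ⟨v, w, hv, hw, rfl⟩ := ih h3
    refine ⟨_, _, .step h2 hv (s.sub h5 hA), .step h4 hw (s.quo h5 hA), ?_⟩
    rw [s.add h5 hA]
    abel

theorem Val.eq_of_mem {A : O} {v : Q} (h : s.Val A v) : s.C A → v = s.t A := by
  induction h with
  | zero hz => exact fun _ => (s.zt hz).symm
  | step h1 _ _ ih =>
    intro hM
    rw [ih (s.sub h1 hM), s.add h1 hM]

theorem Val.unique {M : O} {v' : Q} (h' : s.Val M v') : ∀ {v : Q}, s.Val M v → v = v' := by
  induction h' with
  | zero hz => exact fun h => (h.eq_of_mem (s.zc hz)).trans (s.zt hz)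
  | step h1 _ hA ih =>
    intro v h
    obtain ⟨a, b, ha, hb, rfl⟩ := h.split h1
    rw [ih ha, hb.eq_of_mem hA]

variable (s) in
/-- The objects with a finite filtration with quotients in the class. -/
def Fil (M : O) : Prop := ∃ v, s.Val M v

variable (s) in
open Classical in
/-- The extended function. -/
noncomputable def ext (M : O) : Q := if h : s.Fil M then h.choose else 0

theorem Val.ext_eq {M : O} {v : Q} (h : s.Val M v) : s.ext M = v := by
  have h1 : s.Fil M := ⟨v, h⟩
  rw [Seed.ext, dif_pos h1]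
  exact h.unique h1.choose_spec

theorem Fil.add {N M P : O} (h : E.S N M P) (hM : s.Fil M) : s.ext M = s.ext N + s.ext P := by
  obtain ⟨u, hu⟩ := hM
  obtain ⟨v, w, hv, hw, rfl⟩ := hu.split h
  rw [hu.ext_eq, hv.ext_eq, hw.ext_eq]

theorem Fil.ext_eq {M : O} (hM : s.Fil M) (hC : s.C M) : s.ext M = s.t M := by
  obtain ⟨u, hu⟩ := hM
  rw [hu.ext_eq, hu.eq_of_mem hC]

theorem Fil.zero {M : O} (h : E.Z M) : s.Fil M := ⟨0, .zero h⟩

theorem Fil.step {N M A : O} (h : E.S N M A) (hN : s.Fil N) (hA : s.C A) : s.Fil M :=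
  hN.elim fun _ hv => ⟨_, .step h hv hA⟩

end Seed

end Exa

end Vale.Agent.P297Z.Tau
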