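import Mathlib.RingTheory.GradedAlgebra.Homogeneous.Ideal
import Mathlib.RingTheory.Finiteness.Basic
import Mathlib.RingTheory.Noetherian.Basic
import Mathlib.LinearAlgebra.Isomorphisms
import Vale.Agent.P297Z.Tau.Dev

/-!
# Finitely generated graded modules
-/

set_option linter.unusedSectionVars false

namespace Vale.Agent.P297Z.Tau

open Function

variable {R : Type} [CommRing R] {σ : Type} [SetLike σ R] [AddSubgroupClass σ R]

/-- A finitely generated graded module. -/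
structure GM (𝒜 : ℤ → σ) where
  /-- the module -/
  M : Type
  [acg : AddCommGroup M]
  [mod : Module R M]
  [fin : Module.Finite R M]
  /-- the homogeneous components -/
  π : ℤ → M →+ M
  π_π : ∀ i j m, π i (π j m) = if i = j then π j m else 0
  sum : ∀ m, ∃ s : Finset ℤ, ∑ i ∈ s, π i m = m
  π_smul : ∀ (i j : ℤ) (a : R) (m : M), a ∈ 𝒜 i → π (i + j) (a • m) = a • π j m

attribute [instance] GM.acg GM.mod GM.fin

namespace GM

variable {𝒜 : ℤ → σ}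

/-- A graded homomorphism. -/
structure Hom (A B : GM 𝒜) where
  /-- the linear map -/
  f : A.M →ₗ[R] B.M
  π_f : ∀ j x, B.π j (f x) = f (A.π j x)

/-- The composition. -/
def Hom.comp {A B C : GM 𝒜} (g : Hom B C) (f : Hom A B) : Hom A C :=
  ⟨g.f.comp f.f, fun j x => by rw [LinearMap.comp_apply, g.π_f, f.π_f, LinearMap.comp_apply]⟩

/-- The identity. -/
def Hom.id (A : GM 𝒜) : Hom A A := ⟨LinearMap.id, fun _ _ => rfl⟩

/-- A homogeneous submodule. -/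
def Hg (A : GM 𝒜) (N : Submodule R A.M) : Prop := ∀ j, ∀ x ∈ N, A.π j x ∈ N

theorem hg_bot (A : GM 𝒜) : A.Hg ⊥ := fun j x hx => by
  rw [Submodule.mem_bot] at hx ⊢
  rw [hx, map_zero]

theorem hg_top (A : GM 𝒜) : A.Hg ⊤ := fun _ _ _ => trivial

theorem Hg.sup {A : GM 𝒜} {N L : Submodule R A.M} (hN : A.Hg N) (hL : A.Hg L) : A.Hg (N ⊔ L) := by
  intro j x hx
  obtain ⟨y, hy, z, hz, rfl⟩ := Submodule.mem_sup.1 hx
  rw [map_add]
  exact Submodule.add_mem_sup (hN j y hy) (hL j z hz)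

theorem Hg.comap {A B : GM 𝒜} (f : Hom A B) {L : Submodule R B.M} (hL : B.Hg L) :
    A.Hg (L.comap f.f) := fun j x hx => by
  rw [Submodule.mem_comap, ← f.π_f]
  exact hL j _ hx

theorem Hg.map {A B : GM 𝒜} (f : Hom A B) {L : Submodule R A.M} (hL : A.Hg L) :
    B.Hg (L.map f.f) := by
  rintro j _ ⟨x, hx, rfl⟩
  exact ⟨_, hL j x hx, (f.π_f j x).symm⟩

theorem Hom.hg_ker {A B : GM 𝒜} (f : Hom A B) : A.Hg (LinearMap.ker f.f) := (hg_bot B).comap f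

theorem Hom.hg_range {A B : GM 𝒜} (f : Hom A B) : B.Hg (LinearMap.range f.f) := by
  rintro j _ ⟨x, rfl⟩
  exact ⟨_, (f.π_f j x).symm⟩

/-- The quotient by a homogeneous submodule. -/
def quot (A : GM 𝒜) (N : Submodule R A.M) (hN : A.Hg N) : GM 𝒜 where
  M := A.M ⧸ N
  π j := QuotientAddGroup.map N.toAddSubgroup N.toAddSubgroup (A.π j) (hN j)
  π_π i j m := by
    obtain ⟨x, rfl⟩ := N.mkQ_surjective m
    change N.mkQ (A.π i (A.π j x)) = if i = j then N.mkQ (A.π j x) else 0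
    rw [A.π_π]
    split_ifs
    · rfl
    · exact map_zero _
  sum m := by
    obtain ⟨x, rfl⟩ := N.mkQ_surjective m
    obtain ⟨s, hs⟩ := A.sum x
    refine ⟨s, ?_⟩
    change ∑ i ∈ s, N.mkQ (A.π i x) = _
    rw [← map_sum, hs]
  π_smul i j a m ha := by
    obtain ⟨x, rfl⟩ := N.mkQ_surjective m
    change N.mkQ (A.π (i + j) (a • x)) = a • N.mkQ (A.π j x)
    rw [A.π_smul i j a x ha, map_smul]

/-- The projection to the quotient. -/
def mkQ (A : GM 𝒜) (N : Submodule R A.M) (hN : A.Hg N) : Hom A (A.quot N hN) :=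
  ⟨N.mkQ, fun _ _ => rfl⟩

theorem mkQ_surj (A : GM 𝒜) (N : Submodule R A.M) (hN : A.Hg N) : Surjective (A.mkQ N hN).f :=
  N.mkQ_surjective

theorem mkQ_eq_zero {A : GM 𝒜} {N : Submodule R A.M} {hN : A.Hg N} {x : A.M} :
    (A.mkQ N hN).f x = 0 ↔ x ∈ N := Submodule.Quotient.mk_eq_zero N

/-- A homogeneous submodule as a graded module. -/
def sub [IsNoetherianRing R] (A : GM 𝒜) (N : Submodule R A.M) (hN : A.Hg N) : GM 𝒜 where
  M := N
  π j := ((A.π j).comp N.subtype.toAddMonoidHom).codRestrict N fun x => hN j x x.2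
  π_π i j m := by
    apply Subtype.ext
    change A.π i (A.π j m) = _
    rw [A.π_π]
    split_ifs <;> rfl
  sum m := by
    obtain ⟨s, hs⟩ := A.sum m
    refine ⟨s, Subtype.ext ?_⟩
    rw [← hs]
    exact map_sum N.subtype _ s
  π_smul i j a m ha := Subtype.ext (A.π_smul i j a m ha)

/-- The inclusion of a submodule. -/
def incl [IsNoetherianRing R] (A : GM 𝒜) (N : Submodule R A.M) (hN : A.Hg N) :
    Hom (A.sub N hN) A := ⟨N.subtype, fun _ _ => rfl⟩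

/-- The shift: the generators of degree `j` are placed in degree `j + d`. -/
def shift (A : GM 𝒜) (d : ℤ) : GM 𝒜 where
  M := A.M
  π j := A.π (j - d)
  π_π i j m := by
    rw [A.π_π]
    simp only [sub_left_inj]
  sum m := by
    obtain ⟨s, hs⟩ := A.sum m
    refine ⟨s.map (Equiv.addRight d).toEmbedding, ?_⟩
    rw [Finset.sum_map]
    simpa using hs
  π_smul i j a m ha := by
    rw [add_sub_assoc]
    exact A.π_smul i _ a m ha

theorem exists_lift {A B C : GM 𝒜} (i : Hom B C) (hi : Injective i.f) (f : Hom A C)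
    (h : ∀ x, ∃ y, i.f y = f.f x) : ∃ u : Hom A B, ∀ x, i.f (u.f x) = f.f x := by
  have h1 := LinearMap.codRestrictOfInjective_comp_apply f.f i.f hi h
  refine ⟨⟨f.f.codRestrictOfInjective i.f hi h, fun j x => hi ?_⟩, h1⟩
  rw [← i.π_f, h1, h1, f.π_f]

theorem exists_desc {A B C : GM 𝒜} (q : Hom A B) (hq : Surjective q.f) (f : Hom A C)
    (h : ∀ x, q.f x = 0 → f.f x = 0) : ∃ u : Hom B C, ∀ x, u.f (q.f x) = f.f x := by
  let u : B.M →ₗ[R] C.M := ((LinearMap.ker q.f).liftQ f.f h).comp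
    (q.f.quotKerEquivOfSurjective hq).symm.toLinearMap
  have h1 : ∀ x, u (q.f x) = f.f x := by
    intro x
    have : (q.f.quotKerEquivOfSurjective hq).symm (q.f x) = Submodule.Quotient.mk x := by
      rw [LinearEquiv.symm_apply_eq]
      rfl
    change (LinearMap.ker q.f).liftQ f.f h ((q.f.quotKerEquivOfSurjective hq).symm (q.f x)) = _
    rw [this]
    rfl
  refine ⟨⟨u, fun j x => ?_⟩, h1⟩
  obtain ⟨x, rfl⟩ := hq x
  rw [q.π_f, h1, h1, f.π_f]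

/-- There is a short exact sequence `0 → A → B → C → 0`. -/
def SES (A B C : GM 𝒜) : Prop :=
  ∃ (f : Hom A B) (g : Hom B C), Injective f.f ∧ Surjective g.f ∧ ∀ y, g.f y = 0 ↔ ∃ x, f.f x = y

theorem ses_quot {A B C : GM 𝒜} (f : Hom A B) (g : Hom B C) (hg : Surjective g.f)
    {LA : Submodule R A.M} {LB : Submodule R B.M} {LC : Submodule R C.M} (hA : A.Hg LA)
    (hB : B.Hg LB) (hC : C.Hg LC) (h1 : ∀ x, f.f x ∈ LB ↔ x ∈ LA)
    (h2 : ∀ y, g.f y ∈ LC ↔ ∃ x, y - f.f x ∈ LB) :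
    SES (A.quot LA hA) (B.quot LB hB) (C.quot LC hC) := by
  obtain ⟨u, hu⟩ := exists_desc (A.mkQ LA hA) (A.mkQ_surj _ _) ((B.mkQ LB hB).comp f)
    fun x hx => mkQ_eq_zero.2 ((h1 x).2 (mkQ_eq_zero.1 hx))
  obtain ⟨v, hv⟩ := exists_desc (B.mkQ LB hB) (B.mkQ_surj _ _) ((C.mkQ LC hC).comp g)
    fun y hy => mkQ_eq_zero.2 ((h2 y).2 ⟨0, by simpa using mkQ_eq_zero.1 hy⟩)
  refine ⟨u, v, (injective_iff_map_eq_zero _).2 fun x hx => ?_, fun z => ?_, fun y => ?_⟩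
  · obtain ⟨x, rfl⟩ := A.mkQ_surj LA hA x
    rw [hu] at hx
    exact mkQ_eq_zero.2 ((h1 x).1 (mkQ_eq_zero.1 hx))
  · obtain ⟨z, rfl⟩ := C.mkQ_surj LC hC z
    obtain ⟨y, rfl⟩ := hg z
    exact ⟨_, hv y⟩
  · obtain ⟨y, rfl⟩ := B.mkQ_surj LB hB y
    rw [hv]
    refine (mkQ_eq_zero.trans (h2 y)).trans ⟨?_, ?_⟩
    · rintro ⟨x, hx⟩
      refine ⟨(A.mkQ LA hA).f x, ?_⟩
      rw [hu, eq_comm, ← sub_eq_zero]
      exact ((B.mkQ LB hB).f.map_sub _ _).symm.trans (mkQ_eq_zero.2 hx)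
    · rintro ⟨x, hx⟩
      obtain ⟨x, rfl⟩ := A.mkQ_surj LA hA x
      rw [hu, eq_comm, ← sub_eq_zero] at hx
      exact ⟨x, mkQ_eq_zero.1 (((B.mkQ LB hB).f.map_sub _ _).trans hx)⟩

variable [IsNoetherianRing R]

theorem ses_ker {B C : GM 𝒜} (g : Hom B C) (hg : Surjective g.f) :
    SES (B.sub _ g.hg_ker) B C :=
  ⟨B.incl _ _, g, Subtype.val_injective, hg, fun y =>
    ⟨fun h => ⟨⟨y, h⟩, rfl⟩, fun ⟨x, hx⟩ => hx ▸ x.2⟩⟩

theorem ses_sub (B : GM 𝒜) {N : Submodule R B.M} (hN : B.Hg N) :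
    SES (B.sub N hN) B (B.quot N hN) :=
  ⟨B.incl _ _, B.mkQ _ _, Subtype.val_injective, B.mkQ_surj _ _, fun y =>
    mkQ_eq_zero.trans ⟨fun h => ⟨⟨y, h⟩, rfl⟩, fun ⟨x, hx⟩ => hx ▸ x.2⟩⟩

variable (𝒜) in
/-- The calculus of short exact sequences of graded modules. -/
def exa : Exa (GM 𝒜) where
  S := SES
  Z A := Subsingleton A.M
  zl := fun ⟨_, _, hf, _, _⟩ _ => hf.subsingleton
  zr := fun ⟨_, _, _, hg, _⟩ _ => hg.subsingleton
  cross := by
    rintro M₁ M A N P ⟨i, p, hi, hp, hip⟩ ⟨j, q, hj, hq, hjq⟩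
    have h1 := (p.comp j).hg_ker
    have h2 := (q.comp i).hg_ker
    have h3 := i.hg_range.sup j.hg_range
    refine ⟨N.sub _ h1, N.quot _ h1, M₁.quot _ h2, M.quot _ h3, N.ses_sub h1, ?_, ?_, ?_⟩
    · obtain ⟨u, hu⟩ := exists_lift i hi (j.comp (N.incl _ h1)) fun x => (hip _).1 x.2
      refine ⟨u, M₁.mkQ _ h2, fun x y h => Subtype.ext (hj ?_), M₁.mkQ_surj _ _, fun y =>
        mkQ_eq_zero.trans ((hjq _).trans ⟨?_, ?_⟩)⟩
      · exact (hu x).symm.trans ((congrArg i.f h).trans (hu y))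
      · rintro ⟨x, hx⟩
        refine ⟨⟨x, (hip _).2 ⟨y, hx.symm⟩⟩, hi ((hu _).trans hx)⟩
      · rintro ⟨x, rfl⟩
        exact ⟨x.1, (hu x).symm⟩
    · obtain ⟨u, hu⟩ := exists_desc (M₁.mkQ _ h2) (M₁.mkQ_surj _ _) (q.comp i)
        fun x hx => mkQ_eq_zero.1 hx
      obtain ⟨v, hv⟩ := exists_desc q hq (M.mkQ _ h3)
        fun x hx => mkQ_eq_zero.2 (Submodule.mem_sup_right ((hjq x).1 hx))
      refine ⟨u, v, (injective_iff_map_eq_zero _).2 fun x hx => ?_, fun z => ?_, fun y => ?_⟩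
      · obtain ⟨x, rfl⟩ := M₁.mkQ_surj _ h2 x
        exact mkQ_eq_zero.2 ((hu x).symm.trans hx)
      · obtain ⟨z, rfl⟩ := M.mkQ_surj _ h3 z
        exact ⟨_, hv z⟩
      · obtain ⟨y, rfl⟩ := hq y
        rw [hv]
        refine mkQ_eq_zero.trans ⟨fun h => ?_, ?_⟩
        · obtain ⟨_, ⟨a, rfl⟩, _, ⟨b, rfl⟩, rfl⟩ := Submodule.mem_sup.1 h
          refine ⟨(M₁.mkQ _ h2).f a, ?_⟩
          rw [hu, map_add, (hjq _).2 ⟨b, rfl⟩, add_zero]
          rfl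
        · rintro ⟨x, hx⟩
          obtain ⟨x, rfl⟩ := M₁.mkQ_surj _ h2 x
          rw [hu, eq_comm, ← sub_eq_zero] at hx
          obtain ⟨b, hb⟩ := (hjq (y - i.f x)).1 ((q.f.map_sub _ _).trans hx)
          exact Submodule.mem_sup.2 ⟨_, ⟨x, rfl⟩, _, ⟨b, rfl⟩, by rw [hb, add_sub_cancel]⟩
    · obtain ⟨u, hu⟩ := exists_desc (N.mkQ _ h1) (N.mkQ_surj _ _) (p.comp j)
        fun x hx => mkQ_eq_zero.1 hx
      obtain ⟨v, hv⟩ := exists_desc p hp (M.mkQ _ h3)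
        fun x hx => mkQ_eq_zero.2 (Submodule.mem_sup_left ((hip x).1 hx))
      refine ⟨u, v, (injective_iff_map_eq_zero _).2 fun x hx => ?_, fun z => ?_, fun y => ?_⟩
      · obtain ⟨x, rfl⟩ := N.mkQ_surj _ h1 x
        exact mkQ_eq_zero.2 ((hu x).symm.trans hx)
      · obtain ⟨z, rfl⟩ := M.mkQ_surj _ h3 z
        exact ⟨_, hv z⟩
      · obtain ⟨y, rfl⟩ := hp y
        rw [hv]
        refine mkQ_eq_zero.trans ⟨fun h => ?_, ?_⟩
        · obtain ⟨_, ⟨a, rfl⟩, _, ⟨b, rfl⟩, rfl⟩ := Submodule.mem_sup.1 h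
          refine ⟨(N.mkQ _ h1).f b, ?_⟩
          rw [hu, map_add, (hip _).2 ⟨a, rfl⟩, zero_add]
          rfl
        · rintro ⟨x, hx⟩
          obtain ⟨x, rfl⟩ := N.mkQ_surj _ h1 x
          rw [hu, eq_comm, ← sub_eq_zero] at hx
          obtain ⟨b, hb⟩ := (hip (y - j.f x)).1 ((p.f.map_sub _ _).trans hx)
          exact Submodule.mem_sup.2 ⟨_, ⟨b, rfl⟩, _, ⟨x, rfl⟩, by rw [hb, sub_add_cancel]⟩
  assoc := by
    rintro N M P P₁ A ⟨j, q, hj, hq, hjq⟩ ⟨i, p, hi, hp, hip⟩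
    have h1 := (p.comp q).hg_ker
    refine ⟨M.sub _ h1, ?_, ses_ker (p.comp q) (hp.comp hq)⟩
    obtain ⟨u, hu⟩ := exists_lift (M.incl _ h1) Subtype.val_injective j fun x =>
      ⟨⟨j.f x, (congrArg p.f ((hjq _).2 ⟨x, rfl⟩)).trans (map_zero _)⟩, rfl⟩
    obtain ⟨v, hv⟩ := exists_lift i hi (q.comp (M.incl _ h1)) fun x => (hip _).1 x.2
    refine ⟨u, v, fun x y h => hj ?_, fun z => ?_, fun y => ⟨fun h => ?_, ?_⟩⟩
    · exact (hu x).symm.trans ((congrArg (M.incl _ h1).f h).trans (hu y))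
    · obtain ⟨y, hy⟩ := hq (i.f z)
      exact ⟨⟨y, (congrArg p.f hy).trans ((hip _).2 ⟨z, rfl⟩)⟩, hi ((hv _).trans hy)⟩
    · obtain ⟨x, hx⟩ := (hjq y.1).1 ((hv y).symm.trans ((congrArg i.f h).trans (map_zero _)))
      exact ⟨x, Subtype.ext ((hu x).trans hx)⟩
    · rintro ⟨x, rfl⟩
      refine hi ((hv _).trans ?_)
      rw [map_zero]
      exact (hjq _).2 ⟨x, (hu x).symm⟩

end GM

end Vale.Agent.P297Z.Tau
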