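import Mathlib.RingTheory.GradedAlgebra.Radical
import Vale.Agent.P297Z.Tau.GM

/-!
# Cyclic graded modules, supports, the prime filtration
-/

set_option linter.unusedSectionVars false

namespace Vale.Agent.P297Z.Tau

open Function

variable {R : Type} [CommRing R] {σ : Type} [SetLike σ R] [AddSubgroupClass σ R]

namespace GM

variable {𝒜 : ℤ → σ}

/-- A homogeneous element of degree `j`. -/
def H (A : GM 𝒜) (j : ℤ) (m : A.M) : Prop := A.π j m = m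

theorem Hom.inj {A B : GM 𝒜} (u : Hom A B) (h : ∀ x, u.f x = 0 → x = 0) : Injective u.f :=
  (injective_iff_map_eq_zero u.f).2 h

theorem H_π (A : GM 𝒜) (j : ℤ) (m : A.M) : A.H j (A.π j m) := by
  rw [H, A.π_π, if_pos rfl]

theorem H.smul {A : GM 𝒜} {i j : ℤ} {a : R} {m : A.M} (ha : a ∈ 𝒜 i) (hm : A.H j m) :
    A.H (i + j) (a • m) := by
  rw [H, A.π_smul i j a m ha, hm]

theorem H.map {A B : GM 𝒜} (f : Hom A B) {j : ℤ} {m : A.M} (hm : A.H j m) : B.H j (f.f m) := by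
  rw [H, f.π_f, hm]

theorem H.π_ne {A : GM 𝒜} {i j : ℤ} {m : A.M} (hm : A.H j m) (h : i ≠ j) : A.π i m = 0 := by
  rw [← hm, A.π_π, if_neg h]

open Classical in
/-- The quotient by a submodule, when it is homogeneous. -/
noncomputable def qt (A : GM 𝒜) (N : Submodule R A.M) : GM 𝒜 :=
  if h : A.Hg N then A.quot N h else A

theorem qt_eq {A : GM 𝒜} {N : Submodule R A.M} (h : A.Hg N) : A.qt N = A.quot N h := dif_pos h

theorem ses_qt {A B C : GM 𝒜} (f : Hom A B) (g : Hom B C) (hg : Surjective g.f)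
    {LA : Submodule R A.M} {LB : Submodule R B.M} {LC : Submodule R C.M} (hA : A.Hg LA)
    (hB : B.Hg LB) (hC : C.Hg LC) (h1 : ∀ x, f.f x ∈ LB ↔ x ∈ LA)
    (h2 : ∀ y, g.f y ∈ LC ↔ ∃ x, y - f.f x ∈ LB) : SES (A.qt LA) (B.qt LB) (C.qt LC) := by
  rw [qt_eq hA, qt_eq hB, qt_eq hC]
  exact ses_quot f g hg hA hB hC h1 h2

theorem ses_range {A B : GM 𝒜} (f : Hom A B) {N : Submodule R A.M} {L : Submodule R B.M}
    (hN : A.Hg N) (hL : B.Hg L) (h1 : ∀ x, f.f x = 0 ↔ x ∈ N) (h2 : ∀ y, y ∈ L ↔ ∃ x, f.f x = y) :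
    SES (A.quot N hN) B (B.quot L hL) := by
  obtain ⟨u, hu⟩ := exists_desc (A.mkQ N hN) (A.mkQ_surj _ _) f
    fun x hx => (h1 x).2 (mkQ_eq_zero.1 hx)
  refine ⟨u, B.mkQ L hL, u.inj fun x hx => ?_, B.mkQ_surj _ _, fun y => ?_⟩
  · obtain ⟨x, rfl⟩ := A.mkQ_surj N hN x
    exact mkQ_eq_zero.2 ((h1 x).1 ((hu x).symm.trans hx))
  rw [mkQ_eq_zero, h2]
  constructor
  · rintro ⟨r, rfl⟩
    exact ⟨_, hu r⟩
  · rintro ⟨x, rfl⟩
    obtain ⟨x, rfl⟩ := A.mkQ_surj N hN x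
    exact ⟨x, (hu x).symm⟩

/-- All the homogeneous primes of the support belong to `𝒮`. -/
def In [GradedRing 𝒜] (𝒮 : Set (Ideal R)) (A : GM 𝒜) : Prop :=
  ∀ P : Ideal R, P.IsPrime → P.IsHomogeneous 𝒜 → (∀ r : R, (∀ m : A.M, r • m = 0) → r ∈ P) → P ∈ 𝒮

variable [GradedRing 𝒜] {𝒮 : Set (Ideal R)}

theorem in_of_subsingleton {A : GM 𝒜} (h : Subsingleton A.M) : A.In 𝒮 := fun _ hP _ h1 =>
  absurd (h1 1 fun _ => Subsingleton.elim _ _) ((Ideal.ne_top_iff_one _).1 hP.ne_top)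

theorem In.of_inj {A B : GM 𝒜} (h : B.In 𝒮) (f : Hom A B) (hf : Injective f.f) : A.In 𝒮 :=
  fun P hP hH h1 => h P hP hH fun r hr => h1 r fun m => hf (by rw [map_smul, hr, map_zero])

theorem In.of_surj {A B : GM 𝒜} (h : A.In 𝒮) (f : Hom A B) (hf : Surjective f.f) : B.In 𝒮 :=
  fun P hP hH h1 => h P hP hH fun r hr => h1 r fun m => by
    obtain ⟨x, rfl⟩ := hf m
    rw [← map_smul, hr, map_zero]

theorem SES.in_left {A B C : GM 𝒜} (h : SES A B C) (hB : B.In 𝒮) : A.In 𝒮 :=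
  let ⟨f, _, hf, _⟩ := h; hB.of_inj f hf

theorem SES.in_right {A B C : GM 𝒜} (h : SES A B C) (hB : B.In 𝒮) : C.In 𝒮 :=
  let ⟨_, g, _, hg, _⟩ := h; hB.of_surj g hg

theorem SES.in_mid {A B C : GM 𝒜} (h : SES A B C) (hA : A.In 𝒮) (hC : C.In 𝒮) : B.In 𝒮 := by
  obtain ⟨f, g, -, -, hfg⟩ := h
  intro P hP hH h1
  by_contra hc
  have h2 : ∃ r : R, (∀ m : A.M, r • m = 0) ∧ r ∉ P := by
    by_contra h3
    exact hc (hA P hP hH fun r hr => by_contra fun h4 => h3 ⟨r, hr, h4⟩)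
  have h3 : ∃ r : R, (∀ m : C.M, r • m = 0) ∧ r ∉ P := by
    by_contra h3
    exact hc (hC P hP hH fun r hr => by_contra fun h4 => h3 ⟨r, hr, h4⟩)
  obtain ⟨r, hr, hrP⟩ := h2
  obtain ⟨s, hs, hsP⟩ := h3
  refine (hP.mem_or_mem (h1 (r * s) fun m => ?_)).elim hrP hsP
  obtain ⟨x, hx⟩ := (hfg (s • m)).1 (by rw [map_smul, hs])
  rw [mul_smul, ← hx, ← map_smul, hr, map_zero]

theorem In.mono {A : GM 𝒜} {𝒮' : Set (Ideal R)} (h : A.In 𝒮) (h1 : 𝒮 ⊆ 𝒮') : A.In 𝒮' :=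
  fun P hP hH h2 => h1 (h P hP hH h2)

theorem in_qt {A : GM 𝒜} {N : Submodule R A.M} (hN : A.Hg N)
    (h : ∀ P : Ideal R, P.IsPrime → P.IsHomogeneous 𝒜 →
      (∀ r : R, (∀ m : A.M, r • m ∈ N) → r ∈ P) → P ∈ 𝒮) : (A.qt N).In 𝒮 := by
  rw [qt_eq hN]
  refine fun P hP hH h1 => h P hP hH fun r hr => h1 r fun m => ?_
  obtain ⟨x, rfl⟩ := A.mkQ_surj N hN m
  rw [← map_smul]
  exact mkQ_eq_zero.2 (hr x)

theorem subsingleton_qt {A : GM 𝒜} {N : Submodule R A.M} (hN : A.Hg N) (h : ∀ m, m ∈ N) :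
    Subsingleton (A.qt N).M := by
  rw [qt_eq hN]
  refine subsingleton_of_forall_eq 0 fun m => ?_
  obtain ⟨x, rfl⟩ := A.mkQ_surj N hN m
  exact mkQ_eq_zero.2 (h x)

variable (𝒜) in
/-- The ring as a graded module. -/
noncomputable def one : GM 𝒜 where
  M := R
  π := GradedRing.proj 𝒜
  π_π i j m := by
    simp only [GradedRing.proj_apply]
    split_ifs with h
    · subst h
      exact DirectSum.decompose_of_mem_same 𝒜 (SetLike.coe_mem _)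
    · exact DirectSum.decompose_of_mem_ne 𝒜 (SetLike.coe_mem _) (Ne.symm h)
  sum m := by
    classical
    exact ⟨_, DirectSum.sum_support_decompose 𝒜 m⟩
  π_smul i j a m ha := DirectSum.coe_decompose_mul_add_of_left_mem 𝒜 ha

theorem proj_mem (i : ℤ) (r : R) : GradedRing.proj 𝒜 i r ∈ 𝒜 i := SetLike.coe_mem _

theorem H.π_smul {A : GM 𝒜} {d : ℤ} {m : A.M} (hm : A.H d m) (j : ℤ) (r : R) :
    A.π j (r • m) = GradedRing.proj 𝒜 (j - d) r • m := by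
  induction r using DirectSum.Decomposition.inductionOn 𝒜 with
  | zero => simp
  | add a b ha hb => rw [add_smul, map_add, map_add, add_smul, ha, hb]
  | @homogeneous i a =>
    rw [GradedRing.proj_apply]
    by_cases h : i = j - d
    · subst h
      rw [DirectSum.decompose_of_mem_same 𝒜 a.2]
      have := hm.smul a.2
      rwa [sub_add_cancel] at this
    · rw [DirectSum.decompose_of_mem_ne 𝒜 a.2 h, zero_smul]
      exact (hm.smul a.2).π_ne fun h1 => h (by omega)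

/-- The map `r ↦ r • m`. -/
noncomputable def toSpan {A : GM 𝒜} {d : ℤ} {m : A.M} (hm : A.H d m) :
    Hom ((one 𝒜).shift d) A :=
  ⟨LinearMap.toSpanSingleton R A.M m, fun j r => hm.π_smul j r⟩

theorem H.hg_span {A : GM 𝒜} {d : ℤ} {m : A.M} (hm : A.H d m) : A.Hg (R ∙ m) := by
  rw [LinearMap.span_singleton_eq_range]
  exact (toSpan hm).hg_range

theorem hg_ideal {I : Ideal R} (hI : I.IsHomogeneous 𝒜) (d : ℤ) : ((one 𝒜).shift d).Hg I :=
  fun _ _ hx => hI _ hx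

theorem H_one {i : ℤ} {a : R} (ha : a ∈ 𝒜 i) (e : ℤ) : ((one 𝒜).shift e).H (e + i) a := by
  change GradedRing.proj 𝒜 (e + i - e) a = a
  rw [add_sub_cancel_left, GradedRing.proj_apply, DirectSum.decompose_of_mem_same 𝒜 ha]

variable (𝒜) in
/-- The cyclic module `R / I` with generator in degree `d`. -/
noncomputable def cyc (I : Ideal R) (d : ℤ) : GM 𝒜 := ((one 𝒜).shift d).qt I

theorem H.hom_colon {A : GM 𝒜} {d : ℤ} {m : A.M} (hm : A.H d m) {N : Submodule R A.M}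
    (hN : A.Hg N) {I : Ideal R} (hI : ∀ r, r • m ∈ N ↔ r ∈ I) : I.IsHomogeneous 𝒜 := by
  intro i r hr
  have h := hN (i + d) _ ((hI r).2 hr)
  rw [hm.π_smul, add_sub_cancel_right] at h
  exact (hI _).1 h

theorem ses_cyc {A : GM 𝒜} {d : ℤ} {m : A.M} (hm : A.H d m) {N L : Submodule R A.M}
    (hN : A.Hg N) (hL : A.Hg L) {I : Ideal R} (hI : ∀ r, r • m ∈ N ↔ r ∈ I)
    (h : ∀ y, y ∈ L ↔ ∃ r : R, y - r • m ∈ N) : SES (cyc 𝒜 I d) (A.qt N) (A.qt L) :=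
  ses_qt (toSpan hm) (Hom.id A) surjective_id (hg_ideal (hm.hom_colon hN hI) d) hN hL hI h

theorem ses_cyc' {A : GM 𝒜} {d : ℤ} {m : A.M} (hm : A.H d m) {I : Ideal R}
    (hI : ∀ r, r • m = 0 ↔ r ∈ I) : SES (cyc 𝒜 I d) A (A.quot _ hm.hg_span) := by
  rw [cyc, qt_eq (hg_ideal (hm.hom_colon A.hg_bot hI) d)]
  exact ses_range (toSpan hm) _ _ hI fun _ => Submodule.mem_span_singleton

theorem hom_sup {P : Ideal R} (hP : P.IsHomogeneous 𝒜) {i : ℤ} {a : R} (ha : a ∈ 𝒜 i) :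
    (P ⊔ Ideal.span {a}).IsHomogeneous 𝒜 :=
  hP.sup (Ideal.homogeneous_span 𝒜 _ fun _ hx => ⟨i, hx ▸ ha⟩)

theorem mem_sup_span {P : Ideal R} {a y : R} : y ∈ P ⊔ Ideal.span {a} ↔ ∃ r, y - r * a ∈ P := by
  rw [sup_comm, Ideal.mem_span_singleton_sup]
  constructor
  · rintro ⟨r, b, hb, rfl⟩
    exact ⟨r, by simpa using hb⟩
  · rintro ⟨r, hr⟩
    exact ⟨r, _, hr, add_sub_cancel _ _⟩

theorem ses_ideal {j : ℤ} {b : R} (hb : b ∈ 𝒜 j) (e : ℤ) {N L I : Ideal R}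
    (hN : N.IsHomogeneous 𝒜) (hL : L.IsHomogeneous 𝒜) (hI : ∀ r, r * b ∈ N ↔ r ∈ I)
    (h : ∀ y, y ∈ L ↔ ∃ r, y - r * b ∈ N) : SES (cyc 𝒜 I (e + j)) (cyc 𝒜 N e) (cyc 𝒜 L e) :=
  ses_cyc (H_one hb e) (hg_ideal hN e) (hg_ideal hL e) hI h

theorem ses_mul {P : Ideal R} (hP : P.IsPrime) (hH : P.IsHomogeneous 𝒜) {i j : ℤ} {a b : R}
    (ha : a ∈ 𝒜 i) (hb : b ∈ 𝒜 j) (hbP : b ∉ P) (e : ℤ) :
    SES (cyc 𝒜 (P ⊔ Ideal.span {a}) (e + j)) (cyc 𝒜 (P ⊔ Ideal.span {a * b}) e)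
      (cyc 𝒜 (P ⊔ Ideal.span {b}) e) := by
  refine ses_ideal hb e (hom_sup hH (SetLike.mul_mem_graded ha hb)) (hom_sup hH hb)
    (fun r => ?_) fun y => ?_
  · rw [mem_sup_span, mem_sup_span]
    refine exists_congr fun s => ?_
    rw [← mul_assoc, ← sub_mul, hP.mul_mem_iff_mem_or_mem, or_iff_left hbP]
  · rw [mem_sup_span]
    constructor
    · rintro ⟨r, hr⟩
      exact ⟨r, Ideal.mem_sup_left hr⟩
    · rintro ⟨r, hr⟩
      obtain ⟨s, hs⟩ := mem_sup_span.1 hr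
      refine ⟨r + s * a, ?_⟩
      convert hs using 1
      ring

theorem in_cyc {I : Ideal R} (hI : I.IsHomogeneous 𝒜) (d : ℤ)
    (h : ∀ P : Ideal R, P.IsPrime → P.IsHomogeneous 𝒜 → I ≤ P → P ∈ 𝒮) : (cyc 𝒜 I d).In 𝒮 :=
  in_qt (hg_ideal hI d) fun P hP hH h1 => h P hP hH fun r hr => h1 r fun m =>
    Ideal.mul_mem_right (α := R) m I hr

variable [IsNoetherianRing R]

theorem exists_prime (A : GM 𝒜) (h : ¬ Subsingleton A.M) :
    ∃ (d : ℤ) (m : A.M) (P : Ideal R), A.H d m ∧ P.IsPrime ∧ P.IsHomogeneous 𝒜 ∧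
      ∀ r, r • m = 0 ↔ r ∈ P := by
  have h0 : ∃ d m, A.H d m ∧ m ≠ 0 := by
    by_contra hc
    refine h (subsingleton_of_forall_eq 0 fun m => ?_)
    obtain ⟨s, hs⟩ := A.sum m
    rw [← hs]
    exact Finset.sum_eq_zero fun j _ => by_contra fun h1 => hc ⟨j, _, A.H_π j m, h1⟩
  obtain ⟨d₀, m₀, h1, h2⟩ := h0
  obtain ⟨_, ⟨d, m, hm, hm0, rfl⟩, hmax⟩ := set_has_maximal_iff_noetherian.2
    (inferInstance : IsNoetherian R R)
    {I | ∃ d m, A.H d m ∧ m ≠ 0 ∧ I = LinearMap.ker (LinearMap.toSpanSingleton R A.M m)}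
    ⟨_, d₀, m₀, h1, h2, rfl⟩
  have h3 := hm.hom_colon A.hg_bot
    (I := LinearMap.ker (LinearMap.toSpanSingleton R A.M m)) fun _ => Iff.rfl
  refine ⟨d, m, _, hm, h3.isPrime_of_homogeneous_mem_or_mem ?_ ?_, h3, fun _ => Iff.rfl⟩
  · rw [Ideal.ne_top_iff_one]
    exact fun h4 => hm0 ((one_smul R m).symm.trans h4)
  · rintro x y - ⟨j, hy⟩ hxy
    by_contra hc
    rw [not_or] at hc
    refine hmax _ ⟨_, y • m, hm.smul hy, hc.2, rfl⟩ (lt_of_le_of_ne (fun r hr => ?_) fun h4 => ?_)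
    · change r • y • m = 0
      rw [smul_comm, show r • m = 0 from hr, smul_zero]
    · refine hc.1 (h4 ▸ ?_)
      exact (mul_smul x y m).symm.trans hxy

/-- Induction along a prime filtration. -/
theorem In.induction {Φ : GM 𝒜 → Prop} (h0 : ∀ B : GM 𝒜, Subsingleton B.M → Φ B)
    (h1 : ∀ (P : Ideal R) (d : ℤ) (B C : GM 𝒜), P.IsPrime → P.IsHomogeneous 𝒜 → P ∈ 𝒮 →
      SES (cyc 𝒜 P d) B C → B.In 𝒮 → Φ C → Φ B) {A : GM 𝒜} (hA : A.In 𝒮) : Φ A := by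
  suffices h : ∀ (N : Submodule R A.M) (B : GM 𝒜) (q : Hom A B), Surjective q.f →
      LinearMap.ker q.f = N → Φ B from h _ A (Hom.id A) surjective_id rfl
  intro N
  induction N using IsNoetherian.induction with
  | hgt N ih =>
    rintro B q hq rfl
    by_cases hB : Subsingleton B.M
    · exact h0 B hB
    obtain ⟨d, m, P, hm, hP, hH, hPm⟩ := B.exists_prime hB
    have hB' := hA.of_surj q hq
    refine h1 P d B _ hP hH (hB' P hP hH fun r hr => (hPm r).1 (hr m)) (ses_cyc' hm hPm) hB'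
      (ih _ ?_ _ ((B.mkQ _ hm.hg_span).comp q) ((B.mkQ_surj _ _).comp hq) rfl)
    obtain ⟨x, rfl⟩ := hq m
    refine lt_of_le_of_ne (LinearMap.ker_le_ker_comp _ _) fun h2 => ?_
    have h3 : x ∈ LinearMap.ker q.f := by
      rw [h2]
      exact mkQ_eq_zero.2 (Submodule.mem_span_singleton_self _)
    exact (Ideal.ne_top_iff_one _).1 hP.ne_top ((hPm 1).1 ((one_smul R _).trans h3))

end GM

end Vale.Agent.P297Z.Tau
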