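import Vale.Agent.P297Z.Tau.Mod

/-!
# The three levels of primes on a surface
-/

set_option linter.unusedSectionVars false

namespace Vale.Agent.P297Z.Tau

open Sf GM

variable {K : Type} [Field K] [Algebra ℂ K] {R : Type} [CommRing R] {σ : Type} [SetLike σ R]
  [AddSubgroupClass σ R] {S : Surf K} {𝒜 : ℤ → σ} [GradedRing 𝒜] {ev : K → R →+* K}

variable (𝒜) in
/-- The irrelevant ideals. -/
def Irr : Set (Ideal R) := {P | ∀ y ∈ 𝒜 1, y ∈ P}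

variable (S 𝒜 ev) in
/-- The primes of the points. -/
def Pts : Set (Ideal R) := {P | ∃ x : Pt S.W, IsPt 𝒜 ev x P}

variable (S 𝒜 ev) in
/-- The primes of the curves. -/
def Cvs : Set (Ideal R) := {P | ∃ C : Crv S.W, IsCv 𝒜 ev C P}

theorem exists_lin {P : Ideal R} (h : P ∉ Irr 𝒜) : ∃ y ∈ 𝒜 1, y ∉ P := by
  by_contra hc
  exact h fun y hy => by_contra fun h1 => hc ⟨y, hy, h1⟩

namespace RM

variable (h : RM S.W 𝒜 ev) (hS : S.Loc)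
include h hS

theorem rel_pt {x : Pt S.W} {P : Ideal R} (hx : IsPt 𝒜 ev x P) {w : K} (hw : w ∈ S.W)
    (h1 : x.In w) : ∃ (m : Ideal (chart S.W w)) (hm : m.IsMaximal),
      x.ring = loc _ m hm.isPrime ∧ Rel 𝒜 ev w P m := by
  obtain ⟨m, hm, h2, h3⟩ := hS.pt_chart x w hw h1
  exact ⟨m, hm, h2, fun n a ha f hf => by rw [hx.2.2 w hw h1 n a ha, h3, hf]⟩

theorem rel_cv {C : Crv S.W} {P : Ideal R} (hx : IsCv 𝒜 ev C P) {w : K} (hw : w ∈ S.W)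
    (h1 : C.In w) : ∃ (p : Ideal (chart S.W w)) (hp : p.IsPrime), p ≠ ⊥ ∧ ¬ p.IsMaximal ∧
      (∀ f, f ∈ C.pl.ring ↔ f ∈ loc _ p hp) ∧ Rel 𝒜 ev w P p := by
  obtain ⟨p, hp, h2, h3, h4, h5⟩ := hS.crv_chart C w hw h1
  exact ⟨p, hp, h2, h3, h4, fun n a ha f hf => by rw [hx.2.2 w hw h1 n a ha, h5, hf]⟩

theorem pt_of_rel {w : K} (hw : w ∈ S.W) (h0 : w ≠ 0) {P : Ideal R} (hH : P.IsHomogeneous 𝒜)
    {m : Ideal (chart S.W w)} (hm : m.IsMaximal) (hr : Rel 𝒜 ev w P m) : P ∈ Pts S 𝒜 ev := by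
  let x : Pt S.W := ⟨_, w, hw, h0, m, hm, rfl⟩
  obtain ⟨P', hP'⟩ := h.exists_isPt x
  obtain ⟨m', hm', h1, h2⟩ := h.rel_pt hS hP' hw
    ⟨h0, fun a ha => le_loc _ m hm.isPrime (div_mem_chart ha)⟩
  have h3 : m ≤ m' := le_of_loc_le hm.isPrime hm'.isPrime h1.ge
  have h4 : m' ≤ m := le_of_loc_le hm'.isPrime hm.isPrime h1.le
  exact ⟨x, le_antisymm ((h.rel_le hw h0 hP'.2.1 h2 hr).2 h4) ((h.rel_le hw h0 hH hr h2).2 h3) ▸ hP'⟩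

theorem cv_of_rel {w : K} (hw : w ∈ S.W) (h0 : w ≠ 0) {P : Ideal R} (hH : P.IsHomogeneous 𝒜)
    {p : Ideal (chart S.W w)} (hp : p.IsPrime) (h1 : p ≠ ⊥) (h2 : ¬ p.IsMaximal)
    (hr : Rel 𝒜 ev w P p) : P ∈ Cvs S 𝒜 ev := by
  obtain ⟨C, hC⟩ := hS.crv_of_prime w hw h0 p hp h1 h2
  obtain ⟨P', hP'⟩ := h.exists_isCv C
  obtain ⟨p', hp', -, -, h3, h4⟩ := h.rel_cv hS hP' hw
    ⟨h0, fun a ha => (hC _).2 (le_loc _ p hp (div_mem_chart ha))⟩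
  have h5 : p ≤ p' := le_of_loc_le hp hp' fun f hf => (hC f).1 ((h3 f).2 hf)
  have h6 : p' ≤ p := le_of_loc_le hp' hp fun f hf => (h3 f).1 ((hC f).2 hf)
  exact ⟨C, le_antisymm ((h.rel_le hw h0 hP'.2.1 h4 hr).2 h6) ((h.rel_le hw h0 hH hr h4).2 h5) ▸ hP'⟩

theorem classify {P : Ideal R} (hP : P.IsPrime) (hH : P.IsHomogeneous 𝒜) (h0 : P ≠ ⊥) :
    P ∈ Irr 𝒜 ∪ Pts S 𝒜 ev ∪ Cvs S 𝒜 ev := by
  by_cases h1 : P ∈ Irr 𝒜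
  · exact .inl (.inl h1)
  obtain ⟨y, hy, hyP⟩ := exists_lin h1
  obtain ⟨p, hp, hr⟩ := h.exists_rel hP hy hyP
  have h2 := h.ne_zero hy hyP
  by_cases h3 : p.IsMaximal
  · exact .inl (.inr (h.pt_of_rel hS (h.lin_mem hy) h2 hH h3 hr))
  · refine .inr (h.cv_of_rel hS (h.lin_mem hy) h2 hH hp (fun h4 => h0 ?_) h3 hr)
    exact le_bot_iff.1 ((h.rel_le (h.lin_mem hy) h2 hH hr (h.rel_bot h2)).2 h4.le)

theorem lev0 : Lev 𝒜 (Irr 𝒜) (Pts S 𝒜 ev) where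
  prime := fun _ ⟨_, hx⟩ => hx.1
  hom := fun _ ⟨_, hx⟩ => hx.2.1
  new := fun _ ⟨_, hx⟩ h1 => let ⟨y, hy, h2⟩ := h.pt_gen hx; h2 (h1 y hy)
  up := by
    rintro P ⟨x, hx⟩ P' hP' hH hlt
    by_contra h1
    obtain ⟨y, hy, hyP⟩ := exists_lin h1
    obtain ⟨p, hp, hr⟩ := h.exists_rel hP' hy hyP
    have h2 := h.ne_zero hy hyP
    obtain ⟨m, hm, -, hr'⟩ := h.rel_pt hS hx (h.lin_mem hy)
      ((h.pt_in hx hy).1 fun h3 => hyP (hlt.le h3))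
    have h3 := hm.eq_of_le hp.ne_top ((h.rel_le (h.lin_mem hy) h2 hx.2.1 hr' hr).1 hlt.le)
    exact hlt.not_ge ((h.rel_le (h.lin_mem hy) h2 hH hr hr').2 h3.ge)
  gen := fun _ ⟨_, hx⟩ => h.pt_gen hx
  cl := fun _ h1 _ _ _ h2 y hy => h2 (h1 y hy)

theorem lev1 : Lev 𝒜 (Irr 𝒜 ∪ Pts S 𝒜 ev) (Cvs S 𝒜 ev) where
  prime := fun _ ⟨_, hx⟩ => hx.1
  hom := fun _ ⟨_, hx⟩ => hx.2.1
  new := by
    rintro P ⟨C, hC⟩ h1
    obtain ⟨y, hy, h2⟩ := h.cv_gen hC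
    rcases h1 with h1 | ⟨x, hx⟩
    · exact h2 (h1 y hy)
    have h0 := h.ne_zero hy h2
    obtain ⟨m, hm, -, hr⟩ := h.rel_pt hS hx (h.lin_mem hy) ((h.pt_in hx hy).1 h2)
    obtain ⟨p, hp, -, h3, -, hr'⟩ := h.rel_cv hS hC (h.lin_mem hy) ((h.cv_in hC hy).1 h2)
    exact h3 (hm.eq_of_le hp.ne_top ((h.rel_le (h.lin_mem hy) h0 hx.2.1 hr hr').1 le_rfl) ▸ hm)
  up := by
    rintro P ⟨C, hC⟩ P' hP' hH hlt
    by_cases h1 : P' ∈ Irr 𝒜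
    · exact .inl h1
    obtain ⟨y, hy, hyP⟩ := exists_lin h1
    obtain ⟨p', hp', hr'⟩ := h.exists_rel hP' hy hyP
    have h2 := h.ne_zero hy hyP
    have hw := h.lin_mem hy
    obtain ⟨p, hp, h3, -, h4, hr⟩ := h.rel_cv hS hC hw ((h.cv_in hC hy).1 fun h3 => hyP (hlt.le h3))
    have h5 := (h.rel_le hw h2 hC.2.1 hr hr').1 hlt.le
    refine .inr (h.pt_of_rel hS hw h2 hH (by_contra fun h6 => ?_) hr')
    obtain ⟨C', hC'⟩ := hS.crv_of_prime _ hw h2 p' hp' (fun h7 => h3 (le_bot_iff.1 (h7 ▸ h5))) h6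
    have h7 : C'.pl = C.pl := Pl.eq_of_le' fun f hf => (h4 f).2 (loc_anti hp hp' h5 ((hC' f).1 hf))
    refine hlt.not_ge ((h.rel_le hw h2 hH hr' hr).2 (le_of_loc_le hp' hp fun f hf => ?_))
    exact (hC' f).1 (h7 ▸ (h4 f).2 hf)
  gen := fun _ ⟨_, hx⟩ => h.cv_gen hx
  cl := by
    rintro P (h1 | h1) P' hP' hH h2
    · exact .inl fun y hy => h2 (h1 y hy)
    · exact h2.eq_or_lt.elim (fun h3 => .inr (h3 ▸ h1))
        fun h3 => .inl ((h.lev0 hS).up P h1 P' hP' hH h3)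

theorem bot_notMem : (⊥ : Ideal R) ∉ Irr 𝒜 ∪ Pts S 𝒜 ev ∪ Cvs S 𝒜 ev := by
  rintro ((h1 | ⟨x, hx⟩) | ⟨C, hC⟩)
  · obtain ⟨y, hy, h2⟩ := h.lin (S.x_mem 0)
    exact S.x_ne 0 (by rw [← h2, show y = 0 from h1 y hy, map_zero])
  · obtain ⟨w, hw, h1⟩ := x.exists_in
    obtain ⟨m, hm, h2, hr⟩ := h.rel_pt hS hx hw h1
    have h3 : m ≤ ⊥ := (h.rel_le hw h1.1 hx.2.1 hr (h.rel_bot h1.1)).1 le_rfl
    have h4 : IsField x.ring := by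
      rw [IsLocalRing.isField_iff_maximalIdeal_eq, eq_bot_iff]
      intro f hf
      by_contra h5
      obtain ⟨a, b, hb, e⟩ := h2.le f.2
      refine ((Pt.mem_max x f).1 hf).2.elim (fun h6 => h5 (Subtype.ext h6)) fun h6 => h6 ?_
      have h7 : (a : K) ≠ 0 := by
        rw [← e]
        exact mul_ne_zero (fun h6 => h5 (Subtype.ext h6)) (ne_zero_of_notMem hb)
      refine h2.ge ⟨b, a, fun h8 => h7 (congrArg Subtype.val (h3 h8)), ?_⟩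
      rw [← e, inv_mul_cancel_left₀ fun h6 => h5 (Subtype.ext h6)]
    have h5 := hS.dim x
    rw [ringKrullDim_eq_zero_of_isField h4] at h5
    exact absurd h5 (by decide)
  · obtain ⟨w, hw, h1⟩ := C.exists_in
    obtain ⟨p, hp, h2, -, -, hr⟩ := h.rel_cv hS hC hw h1
    exact h2 (le_bot_iff.1 ((h.rel_le hw h1.1 hC.2.1 hr (h.rel_bot h1.1)).1 le_rfl))

theorem lev2 : Lev 𝒜 (Irr 𝒜 ∪ Pts S 𝒜 ev ∪ Cvs S 𝒜 ev) {⊥} where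
  prime := fun _ h1 => h1 ▸ h.bot_prime
  hom := fun _ h1 => h1 ▸ Ideal.IsHomogeneous.bot 𝒜
  new := fun _ h1 => h1 ▸ h.bot_notMem hS
  up := fun _ h1 _ hP' hH h2 => h.classify hS hP' hH (h1 ▸ h2 : ⊥ < _).ne'
  gen := fun _ h1 => h1 ▸ exists_lin fun h2 => h.bot_notMem hS (.inl (.inl h2))
  cl := fun _ h1 _ hP' hH h2 => h.classify hS hP' hH fun h3 =>
    h.bot_notMem hS (le_bot_iff.1 (h3 ▸ h2) ▸ h1)

theorem in_all (A : GM 𝒜) : A.In (Irr 𝒜 ∪ Pts S 𝒜 ev ∪ Cvs S 𝒜 ev ∪ {⊥}) := fun P hP hH _ =>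
  (em (P = ⊥)).elim .inr fun h1 => .inl (h.classify hS hP hH h1)

theorem frac_cv {C : Crv S.W} {P : Ideal R} (hC : IsCv 𝒜 ev C P) {f : K} (hf : f ∈ C.pl.ring) :
    ∃ (n : ℕ) (s u : R), s ∈ 𝒜 n ∧ u ∈ 𝒜 n ∧ s ∉ P ∧ f * ev 1 s = ev 1 u := by
  obtain ⟨w, hw, h1⟩ := C.exists_in
  obtain ⟨p, hp, -, -, h2, hr⟩ := h.rel_cv hS hC hw h1
  obtain ⟨a, b, hb, e⟩ := (h2 f).1 hf
  obtain ⟨n, u, s, hu, hs, e1, e2⟩ := h.exists_ev₂ hw h1.1 a.2 b.2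
  refine ⟨n, s, u, hs, hu, fun h3 => hb ((hr n s hs b e2).1 h3), ?_⟩
  rw [← e1, ← e2, h.hom w h1.1 n u hu, h.hom w h1.1 n s hs, ← mul_div_assoc,
    div_left_inj' (pow_ne_zero _ h1.1)] at e
  exact e

theorem hV : ∀ P ∈ Cvs S 𝒜 ev, ∀ (i : ℤ) (a b : R), a ∈ 𝒜 i → b ∈ 𝒜 i →
    ∃ (j : ℤ) (s u : R), s ∈ 𝒜 j ∧ u ∈ 𝒜 j ∧ s ∉ P ∧ (a * s = b * u ∨ b * s = a * u) := by
  rintro P ⟨C, hC⟩ i a b ha hb
  have h1 : (1 : R) ∉ P := (Ideal.ne_top_iff_one _).1 hC.1.ne_top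
  by_cases ha0 : a = 0
  · exact ⟨0, 1, 0, SetLike.one_mem_graded 𝒜, zero_mem _, h1, .inl (by simp [ha0])⟩
  by_cases hb0 : b = 0
  · exact ⟨0, 1, 0, SetLike.one_mem_graded 𝒜, zero_mem _, h1, .inr (by simp [hb0])⟩
  obtain ⟨n, rfl⟩ := (h.nat ha).resolve_left ha0
  have key : ∀ a b : R, a ∈ 𝒜 n → b ∈ 𝒜 n → b ≠ 0 → ev 1 a / ev 1 b ∈ C.pl.ring →
      ∃ (j : ℤ) (s u : R), s ∈ 𝒜 j ∧ u ∈ 𝒜 j ∧ s ∉ P ∧ a * s = b * u := by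
    intro a b ha hb hb0 h2
    obtain ⟨m, s, u, hs, hu, hsP, e⟩ := h.frac_cv hS hC h2
    refine ⟨m, s, u, hs, hu, hsP, h.eq_of_ev one_ne_zero (mul_mem_nat ha hs) (mul_mem_nat hb hu) ?_⟩
    rw [map_mul, map_mul, ← e, ← mul_assoc, mul_div_cancel₀ _ fun h3 => hb0 (h.inj n b hb h3)]
  rcases C.pl.ring.mem_or_inv_mem (ev 1 a / ev 1 b) with h2 | h2
  · obtain ⟨j, s, u, h3, h4, h5, h6⟩ := key a b ha hb hb0 h2
    exact ⟨j, s, u, h3, h4, h5, .inl h6⟩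
  · obtain ⟨j, s, u, h3, h4, h5, h6⟩ := key b a hb ha ha0 (by rwa [inv_div] at h2)
    exact ⟨j, s, u, h3, h4, h5, .inr h6⟩

theorem hN (i : ℤ) (a b : R) (ha : a ∈ 𝒜 i) (hb : b ∈ 𝒜 i) (ha0 : a ≠ 0) (hb0 : b ≠ 0)
    (h1 : ∀ P ∈ Cvs S 𝒜 ev, ∃ (j : ℤ) (s u : R), s ∈ 𝒜 j ∧ u ∈ 𝒜 j ∧ s ∉ P ∧ u ∉ P ∧
      a * s = b * u) : Ideal.span {a} = Ideal.span {b} := by
  obtain ⟨n, rfl⟩ := (h.nat ha).resolve_left ha0
  have key : ∀ a b : R, a ∈ 𝒜 n → b ∈ 𝒜 n → b ≠ 0 →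
      (∀ P ∈ Cvs S 𝒜 ev, ∃ (j : ℤ) (s u : R), s ∈ 𝒜 j ∧ u ∈ 𝒜 j ∧ s ∉ P ∧ a * s = b * u) →
      Ideal.span {a} ≤ Ideal.span {b} := by
    intro a b ha hb hb0 h1
    have hb1 : ev 1 b ≠ 0 := fun h3 => hb0 (h.inj n b hb h3)
    obtain ⟨c, hc⟩ := hS.const (ev 1 a / ev 1 b) (by
      refine (em (ev 1 a / ev 1 b = 0)).imp_right fun h2 C _ => ?_
      obtain ⟨P, hP⟩ := h.exists_isCv C
      obtain ⟨j, s, u, hs, hu, hsP, e⟩ := h1 P ⟨C, hP⟩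
      obtain ⟨m, rfl⟩ := (h.nat hs).resolve_left fun h3 => hsP (h3 ▸ P.zero_mem)
      obtain ⟨w, hw, h3⟩ := C.exists_in
      have h4 := hP.2.2 w hw h3 m s hs
      rw [iff_false_intro hsP, false_iff, not_or, not_lt] at h4
      have h5 : ev 1 a / ev 1 b * ev w s = ev w u := by
        have := congrArg (ev 1) e
        rw [map_mul, map_mul] at this
        rw [h.hom w h3.1 m s hs, h.hom w h3.1 m u hu, ← mul_div_assoc, div_mul_eq_mul_div, this,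
          mul_div_cancel_left₀ _ hb1]
      have h6 := Pl.ord_nonneg_of_mem _ (h3.chart_mem (h.ev_chart h3.1 u))
      rw [← h5, Pl.ord_mul _ h2 h4.1] at h6
      have h7 := h4.2
      unfold Crv.ord at *
      rw [Finsupp.zero_apply]
      omega)
    obtain ⟨r, hr, e⟩ := h.surj 0 (algebraMap ℂ K c) (by
      rw [pow_zero]
      exact Submodule.algebraMap_mem c)
    refine (Ideal.span_singleton_le_iff_mem _).2 (Ideal.mem_span_singleton'.2 ⟨r, ?_⟩)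
    refine h.eq_of_ev one_ne_zero (by simpa using mul_mem_nat hr hb) ha ?_
    rw [map_mul, e, ← hc, div_mul_cancel₀ _ hb1]
  refine le_antisymm (key a b ha hb hb0 fun P hP => ?_) (key b a hb ha ha0 fun P hP => ?_)
  · obtain ⟨j, s, u, h2, h3, h4, -, h5⟩ := h1 P hP
    exact ⟨j, s, u, h2, h3, h4, h5⟩
  · obtain ⟨j, s, u, h2, h3, -, h4, h5⟩ := h1 P hP
    exact ⟨j, u, s, h3, h2, h4, h5.symm⟩

end RM

end Vale.Agent.P297Z.Tau
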