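import Vale.Agent.P297Z.Tau.Core
import Vale.Agent.P297Z.Surf.Sk
import Vale.Agent.P297Z.Surf.Chart

/-!
# Homogeneous primes of the coordinate ring, points and curves
-/

set_option linter.unusedSectionVars false

namespace Vale.Agent.P297Z.Tau

open Sf GM

variable {K : Type} [Field K] [Algebra ℂ K] {R : Type} [CommRing R] {σ : Type} [SetLike σ R]
  [AddSubgroupClass σ R]

/-- `R` is the homogeneous coordinate ring of `W`. -/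
structure RM (W : Submodule ℂ K) (𝒜 : ℤ → σ) (ev : K → R →+* K) : Prop where
  hom : ∀ w, w ≠ 0 → ∀ (n : ℕ) a, a ∈ 𝒜 n → ev w a = ev 1 a / w ^ n
  inj : ∀ (n : ℕ) a, a ∈ 𝒜 n → ev 1 a = 0 → a = 0
  mem : ∀ (n : ℕ) a, a ∈ 𝒜 n → ev 1 a ∈ W ^ n
  surj : ∀ n : ℕ, ∀ u ∈ W ^ n, ∃ a ∈ 𝒜 n, ev 1 a = u
  neg : ∀ i < 0, ∀ a ∈ 𝒜 i, a = 0

variable {W : Submodule ℂ K} {𝒜 : ℤ → σ} [GradedRing 𝒜] {ev : K → R →+* K}

theorem mul_mem_nat {m n : ℕ} {a b : R} (ha : a ∈ 𝒜 m) (hb : b ∈ 𝒜 n) :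
    a * b ∈ 𝒜 ((m + n : ℕ) : ℤ) := by
  rw [Nat.cast_add]
  exact SetLike.mul_mem_graded ha hb

variable (𝒜 ev) in
/-- The homogeneous ideal `P` corresponds to the ideal `p` of the chart. -/
def Rel (w : K) (P : Ideal R) (p : Ideal (chart W w)) : Prop :=
  ∀ (n : ℕ) a, a ∈ 𝒜 n → ∀ f : chart W w, ev w a = f → (a ∈ P ↔ f ∈ p)

variable (𝒜 ev) in
/-- The homogeneous prime of a point. -/
def IsPt (x : Pt W) (P : Ideal R) : Prop := P.IsPrime ∧ P.IsHomogeneous 𝒜 ∧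
  ∀ w ∈ W, x.In w → ∀ (n : ℕ) a, a ∈ 𝒜 n → (a ∈ P ↔ x.Van (ev w a))

variable (𝒜 ev) in
/-- The homogeneous prime of a curve. -/
def IsCv (C : Crv W) (P : Ideal R) : Prop := P.IsPrime ∧ P.IsHomogeneous 𝒜 ∧
  ∀ w ∈ W, C.In w → ∀ (n : ℕ) a, a ∈ 𝒜 n → (a ∈ P ↔ (ev w a = 0 ∨ 0 < C.ord (ev w a)))

namespace RM

variable (h : RM W 𝒜 ev)
include h

theorem nat {i : ℤ} {a : R} (ha : a ∈ 𝒜 i) : a = 0 ∨ ∃ n : ℕ, i = n := by
  by_cases hi : i < 0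
  · exact .inl (h.neg i hi a ha)
  · exact .inr ⟨i.toNat, by omega⟩

theorem ind {p : R → Prop} (h0 : p 0) (h1 : ∀ (n : ℕ) a, a ∈ 𝒜 n → p a)
    (h2 : ∀ a b, p a → p b → p (a + b)) (a : R) : p a := by
  induction a using DirectSum.Decomposition.inductionOn 𝒜 with
  | zero => exact h0
  | add a b ha hb => exact h2 a b ha hb
  | @homogeneous i a =>
    rcases h.nat a.2 with h3 | ⟨n, rfl⟩
    · rw [h3]
      exact h0
    · exact h1 n a a.2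

theorem le {I J : Ideal R} (hI : I.IsHomogeneous 𝒜)
    (h1 : ∀ (n : ℕ) a, a ∈ 𝒜 n → a ∈ I → a ∈ J) : I ≤ J := by
  intro a ha
  obtain ⟨s, hs⟩ := (one 𝒜).sum a
  refine hs ▸ J.sum_mem fun i _ => ?_
  rcases h.nat (proj_mem (𝒜 := 𝒜) i a) with h3 | ⟨n, rfl⟩
  · exact (show GradedRing.proj 𝒜 i a ∈ J from h3 ▸ J.zero_mem)
  · exact h1 n _ (proj_mem _ a) (hI _ ha)

theorem lin {w : K} (hw : w ∈ W) : ∃ y ∈ 𝒜 1, ev 1 y = w := h.surj 1 w (by rwa [pow_one])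

theorem lin_mem {y : R} (hy : y ∈ 𝒜 1) : ev 1 y ∈ W := by simpa using h.mem 1 y hy

theorem ev_lin {y : R} (hy : y ∈ 𝒜 1) {w : K} (hw : w ≠ 0) : ev w y = ev 1 y / w := by
  simpa using h.hom w hw 1 y hy

theorem ev_mem {w : K} (hw : w ≠ 0) {B : Subalgebra ℂ K} (hB : ∀ a ∈ W, a / w ∈ B) (a : R) :
    ev w a ∈ B :=
  h.ind (p := fun a => ev w a ∈ B) (by simp) (fun n a ha => by
    rw [h.hom w hw n a ha]
    exact pow_div_mem hB n _ (h.mem n a ha)) (fun a b ha hb => by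
    rw [map_add]
    exact add_mem ha hb) a

theorem ev_chart {w : K} (hw : w ≠ 0) (a : R) : ev w a ∈ chart W w :=
  h.ev_mem hw (fun _ => div_mem_chart) a

theorem exists_ev {w : K} (hw : w ∈ W) (h0 : w ≠ 0) {f : K} (hf : f ∈ chart W w) :
    ∃ n₀ : ℕ, ∀ n, n₀ ≤ n → ∃ a ∈ 𝒜 (n : ℕ), ev w a = f := by
  obtain ⟨n₀, hn⟩ := exists_pow_of_mem_chart hw h0 hf
  refine ⟨n₀, fun n h1 => ?_⟩
  obtain ⟨a, ha, h2⟩ := h.surj n _ (hn n h1)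
  exact ⟨a, ha, by rw [h.hom w h0 n a ha, h2, mul_div_cancel_right₀ _ (pow_ne_zero _ h0)]⟩

theorem exists_ev₂ {w : K} (hw : w ∈ W) (h0 : w ≠ 0) {f g : K} (hf : f ∈ chart W w)
    (hg : g ∈ chart W w) : ∃ (n : ℕ) (a b : R), a ∈ 𝒜 n ∧ b ∈ 𝒜 n ∧ ev w a = f ∧ ev w b = g := by
  obtain ⟨n, hn⟩ := h.exists_ev hw h0 hf
  obtain ⟨m, hm⟩ := h.exists_ev hw h0 hg
  obtain ⟨a, ha, h1⟩ := hn (n + m) (by omega)
  obtain ⟨b, hb, h2⟩ := hm (n + m) (by omega)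
  exact ⟨_, a, b, ha, hb, h1, h2⟩

theorem eq_of_ev {w : K} (hw : w ≠ 0) {n : ℕ} {a b : R} (ha : a ∈ 𝒜 n) (hb : b ∈ 𝒜 n)
    (h1 : ev w a = ev w b) : a = b := by
  rw [h.hom w hw n a ha, h.hom w hw n b hb, div_left_inj' (pow_ne_zero _ hw)] at h1
  exact sub_eq_zero.1 (h.inj n _ (sub_mem ha hb) (by rw [map_sub, h1, sub_self]))

theorem bot_prime : (⊥ : Ideal R).IsPrime := by
  refine (Ideal.IsHomogeneous.bot 𝒜).isPrime_of_homogeneous_mem_or_mem ?_ ?_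
  · rw [Ideal.ne_top_iff_one]
    intro h1
    exact one_ne_zero ((map_one (ev 1)).symm.trans ((congrArg _ h1).trans (map_zero _)))
  · rintro a b ⟨i, ha⟩ ⟨j, hb⟩ hab
    rcases h.nat ha with h1 | ⟨n, rfl⟩
    · exact .inl h1
    rcases h.nat hb with h1 | ⟨m, rfl⟩
    · exact .inr h1
    have h2 : ev 1 a * ev 1 b = 0 := by rw [← map_mul, show a * b = 0 from hab, map_zero]
    exact (mul_eq_zero.1 h2).imp (h.inj n a ha) (h.inj m b hb)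

theorem exists_hz {w : K} (hw : w ≠ 0) {B : Subalgebra ℂ K} (hB : ∀ a ∈ W, a / w ∈ B)
    {p : Ideal B} (hp : p.IsPrime) : ∃ P : Ideal R, P.IsPrime ∧ P.IsHomogeneous 𝒜 ∧
      ∀ (n : ℕ) a, a ∈ 𝒜 n → ∀ f : B, ev w a = f → (a ∈ P ↔ f ∈ p) := by
  let φ : R →+* B := (ev w).codRestrict B (h.ev_mem hw hB)
  refine ⟨((p.comap φ).homogeneousCore 𝒜).toIdeal, (hp.comap φ).homogeneousCore,
    HomogeneousIdeal.isHomogeneous _, fun n a ha f hf => ?_⟩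
  rw [← show φ a = f from Subtype.ext hf]
  exact ⟨fun h1 => Ideal.toIdeal_homogeneousCore_le 𝒜 _ h1,
    fun h1 => Ideal.mem_homogeneousCore_of_homogeneous_of_mem ⟨n, ha⟩ h1⟩

theorem ev_self {y : R} (hy : y ∈ 𝒜 1) (h0 : ev 1 y ≠ 0) : ev (ev 1 y) y = 1 := by
  rw [h.ev_lin hy h0, div_self h0]

theorem ne_zero {y : R} (hy : y ∈ 𝒜 1) {P : Ideal R} (hyP : y ∉ P) : ev 1 y ≠ 0 :=
  fun h1 => hyP (h.inj 1 y hy h1 ▸ P.zero_mem)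

theorem exists_rel {P : Ideal R} (hP : P.IsPrime) {y : R} (hy : y ∈ 𝒜 1) (hyP : y ∉ P) :
    ∃ p : Ideal (chart W (ev 1 y)), p.IsPrime ∧ Rel 𝒜 ev (ev 1 y) P p := by
  have h0 := h.ne_zero hy hyP
  have hw := h.lin_mem hy
  have h1 := h.ev_self hy h0
  have key : ∀ (m n : ℕ) (a b : R), a ∈ 𝒜 m → b ∈ 𝒜 n → ev (ev 1 y) a = ev (ev 1 y) b → a ∈ P →
      b ∈ P := by
    intro m n a b ha hb h2 h3
    have h4 := h.eq_of_ev h0 (mul_mem_nat ha (pow_mem hy n))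
      (by rw [add_comm]; exact mul_mem_nat hb (pow_mem hy m)) (by simp [h1, h2])
    exact (hP.mem_or_mem (h4 ▸ P.mul_mem_right _ h3)).resolve_right
      fun h5 => hyP (hP.mem_of_pow_mem _ h5)
  let p : Ideal (chart W (ev 1 y)) :=
    { carrier := {f | ∃ (n : ℕ) (a : R), a ∈ 𝒜 n ∧ a ∈ P ∧ ev (ev 1 y) a = f}
      zero_mem' := ⟨0, 0, zero_mem _, P.zero_mem, map_zero _⟩
      add_mem' := by
        rintro f g ⟨m, a, ha, haP, e1⟩ ⟨n, b, hb, hbP, e2⟩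
        refine ⟨m + n, a * y ^ n + y ^ m * b, add_mem (mul_mem_nat ha (pow_mem hy n))
          (mul_mem_nat (pow_mem hy m) hb), add_mem (P.mul_mem_right _ haP) (P.mul_mem_left _ hbP),
          by simp [h1, e1, e2]⟩
      smul_mem' := by
        rintro c f ⟨m, a, ha, haP, e1⟩
        obtain ⟨n, hn⟩ := h.exists_ev hw h0 c.2
        obtain ⟨b, hb, e2⟩ := hn n le_rfl
        exact ⟨n + m, b * a, mul_mem_nat hb ha, P.mul_mem_left _ haP, by simp [e1, e2]⟩ }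
  have hr : Rel 𝒜 ev (ev 1 y) P p := fun n a ha f hf =>
    ⟨fun h2 => ⟨n, a, ha, h2, hf⟩, fun ⟨m, b, hb, h2, h3⟩ => key m n b a hb ha (h3.trans hf.symm) h2⟩
  refine ⟨p, ⟨?_, fun {f g} hfg => ?_⟩, hr⟩
  · rw [Ideal.ne_top_iff_one, ← hr 1 y hy 1 h1]
    exact hyP
  · obtain ⟨n, a, b, ha, hb, e1, e2⟩ := h.exists_ev₂ hw h0 f.2 g.2
    rw [← hr n a ha f e1, ← hr n b hb g e2]
    exact hP.mem_or_mem ((hr _ _ (mul_mem_nat ha hb) (f * g) (by simp [e1, e2])).2 hfg)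

theorem rel_le {w : K} (hw : w ∈ W) (h0 : w ≠ 0) {P P' : Ideal R} {p p' : Ideal (chart W w)}
    (hH : P.IsHomogeneous 𝒜) (h1 : Rel 𝒜 ev w P p) (h2 : Rel 𝒜 ev w P' p') : P ≤ P' ↔ p ≤ p' := by
  refine ⟨fun h3 f hf => ?_, fun h3 => h.le hH fun n a ha haP => ?_⟩
  · obtain ⟨n, hn⟩ := h.exists_ev hw h0 f.2
    obtain ⟨a, ha, e⟩ := hn n le_rfl
    exact (h2 n a ha f e).1 (h3 ((h1 n a ha f e).2 hf))
  · exact (h2 n a ha ⟨_, h.ev_chart h0 a⟩ rfl).2 (h3 ((h1 n a ha _ rfl).1 haP))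

theorem rel_bot {w : K} (h0 : w ≠ 0) : Rel (W := W) 𝒜 ev w ⊥ ⊥ := fun n a ha f hf =>
  ⟨fun h1 => Subtype.ext (by rw [← hf, show a = 0 from h1, map_zero]; rfl), fun h1 =>
    h.eq_of_ev h0 ha (zero_mem _) (by rw [hf, show f = 0 from h1, map_zero]; rfl)⟩

theorem ev_change {w w' : K} (h0 : w ≠ 0) (h0' : w' ≠ 0) {n : ℕ} {a : R} (ha : a ∈ 𝒜 n) :
    ev w' a = ev w a * (w / w') ^ n := by
  rw [h.hom w h0 n a ha, h.hom w' h0' n a ha, div_pow]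
  field_simp

theorem exists_isPt (x : Pt W) : ∃ P, IsPt 𝒜 ev x P := by
  obtain ⟨w, hw, hx⟩ := x.exists_in
  obtain ⟨P, h1, h2, h3⟩ := h.exists_hz hx.1 hx.2 (IsLocalRing.maximalIdeal.isMaximal x.ring).isPrime
  refine ⟨P, h1, h2, fun w' hw' hx' n a ha => ?_⟩
  rw [h3 n a ha ⟨_, h.ev_mem hx.1 hx.2 a⟩ rfl, Pt.mem_max]
  constructor
  · intro h4
    rw [h.ev_change hx.1 hx'.1 ha]
    exact h4.mul_right (pow_mem (hx'.2 w hw) n)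
  · intro h4
    change x.Van (ev w a)
    rw [h.ev_change hx'.1 hx.1 ha]
    exact h4.mul_right (pow_mem (hx.2 w' hw') n)

theorem exists_isCv (C : Crv W) : ∃ P, IsCv 𝒜 ev C P := by
  obtain ⟨w, hw, hx⟩ := C.exists_in
  let _ : IsLocalRing C.alg := inferInstanceAs (IsLocalRing C.pl.ring)
  obtain ⟨P, h1, h2, h3⟩ := h.exists_hz (B := C.alg) hx.1 hx.2
    (IsLocalRing.maximalIdeal.isMaximal C.alg).isPrime
  refine ⟨P, h1, h2, fun w' hw' hx' n a ha => ?_⟩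
  rw [h3 n a ha ⟨_, h.ev_mem (B := C.alg) hx.1 hx.2 a⟩ rfl]
  refine (Pl.mem_maximalIdeal_iff C.pl ⟨_, h.ev_mem (B := C.alg) hx.1 hx.2 a⟩).trans ?_
  change (ev w a = 0 ∨ 0 < C.ord (ev w a)) ↔ _
  rw [h.ev_change hx.1 hx'.1 ha]
  have h4 : (w / w') ^ n ≠ 0 := pow_ne_zero _ (div_ne_zero hx.1 hx'.1)
  by_cases h5 : ev w a = 0
  · simp [h5]
  · have h6 := (Crv.in_iff hx hw hw' hx'.1).1 hx'
    unfold Crv.ord at h6 ⊢
    rw [Pl.ord_mul _ h5 h4, Pl.ord_pow, Pl.ord_div _ hx.1 hx'.1, h6]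
    simp [h5, h4]

theorem pt_in {x : Pt W} {P : Ideal R} (hx : IsPt 𝒜 ev x P) {y : R} (hy : y ∈ 𝒜 1) :
    y ∉ P ↔ x.In (ev 1 y) := by
  obtain ⟨w, hw, h1⟩ := x.exists_in
  rw [hx.2.2 w hw h1 1 y hy, h.ev_lin hy h1.1, Pt.in_iff h1 hw (h.lin_mem hy)]

theorem cv_in {C : Crv W} {P : Ideal R} (hx : IsCv 𝒜 ev C P) {y : R} (hy : y ∈ 𝒜 1) :
    y ∉ P ↔ C.In (ev 1 y) := by
  obtain ⟨w, hw, h1⟩ := C.exists_in
  rw [hx.2.2 w hw h1 1 y hy, h.ev_lin hy h1.1]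
  by_cases h0 : ev 1 y = 0
  · simp [h0, Crv.In]
  · have h2 := Pl.ord_nonneg_of_mem _ (h1.2 _ (h.lin_mem hy))
    rw [Crv.in_iff h1 hw (h.lin_mem hy) h0, not_or]
    unfold Crv.ord
    rw [Pl.ord_div _ h0 h1.1] at h2 ⊢
    simp only [div_ne_zero h0 h1.1, not_false_eq_true, true_and]
    omega

theorem pt_unique {x : Pt W} {P P' : Ideal R} (h1 : IsPt 𝒜 ev x P) (h2 : IsPt 𝒜 ev x P') :
    P = P' := by
  obtain ⟨w, hw, h3⟩ := x.exists_in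
  exact le_antisymm
    (h.le h1.2.1 fun n a ha h4 => (h2.2.2 w hw h3 n a ha).2 ((h1.2.2 w hw h3 n a ha).1 h4))
    (h.le h2.2.1 fun n a ha h4 => (h1.2.2 w hw h3 n a ha).2 ((h2.2.2 w hw h3 n a ha).1 h4))

theorem pt_gen {x : Pt W} {P : Ideal R} (hx : IsPt 𝒜 ev x P) : ∃ y ∈ 𝒜 1, y ∉ P := by
  obtain ⟨w, hw, h1⟩ := x.exists_in
  obtain ⟨y, hy, rfl⟩ := h.lin hw
  exact ⟨y, hy, (h.pt_in hx hy).2 h1⟩

theorem cv_gen {C : Crv W} {P : Ideal R} (hx : IsCv 𝒜 ev C P) : ∃ y ∈ 𝒜 1, y ∉ P := by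
  obtain ⟨w, hw, h1⟩ := C.exists_in
  obtain ⟨y, hy, rfl⟩ := h.lin hw
  exact ⟨y, hy, (h.cv_in hx hy).2 h1⟩

end RM

end Vale.Agent.P297Z.Tau
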