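import Mathlib.RingTheory.Length
import Vale.Agent.P297Z.Tau.Lev

/-!
# Multiplicities at points
-/

set_option linter.unusedSectionVars false

namespace Vale.Agent.P297Z.Tau

open Sf GM

variable {K : Type} [Field K] [Algebra ℂ K] {R : Type} [CommRing R] {σ : Type} [SetLike σ R]
  [AddSubgroupClass σ R] {S : Surf K} {𝒜 : ℤ → σ} [GradedRing 𝒜] {ev : K → R →+* K}

theorem ideal_ind [IsNoetherianRing R] {Φ : Ideal R → Prop} (h0 : Φ ⊤)
    (h1 : ∀ (I P : Ideal R) (j : ℤ) (b : R), I.IsHomogeneous 𝒜 → P.IsPrime → P.IsHomogeneous 𝒜 →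
      b ∈ 𝒜 j → (∀ r, r * b ∈ I ↔ r ∈ P) → Φ (I ⊔ Ideal.span {b}) → Φ I)
    (I : Ideal R) : I.IsHomogeneous 𝒜 → Φ I := by
  induction I using IsNoetherian.induction with
  | hgt I ih =>
    intro hI
    by_cases h2 : I = ⊤
    · exact h2 ▸ h0
    obtain ⟨m₀, hm₀, h3, h4⟩ := cyc_gen hI 0
    obtain ⟨d, m, P, hm, hP, hH, h5⟩ := (cyc 𝒜 I 0).exists_prime fun h5 =>
      (Ideal.ne_top_iff_one _).1 h2 ((h3 1).1 (Subsingleton.elim _ _))
    obtain ⟨r, rfl⟩ := h4 m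
    have h6 : GradedRing.proj 𝒜 (d - 0) r • m₀ = r • m₀ := (hm₀.π_smul d r).symm.trans hm
    have h7 : ∀ s, s * GradedRing.proj 𝒜 (d - 0) r ∈ I ↔ s ∈ P := fun s => by
      rw [← h3, mul_smul, h6, h5]
    refine h1 I P _ _ hI hP hH (proj_mem _ r) h7 (ih _ (lt_of_le_of_ne le_sup_left fun h8 => ?_)
      (hom_sup hI (proj_mem _ r)))
    refine (Ideal.ne_top_iff_one _).1 hP.ne_top ((h7 1).1 ?_)
    rw [one_mul, h8]
    exact Ideal.mem_sup_right (Ideal.mem_span_singleton_self _)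

theorem length_quot {O : Type} [CommRing O] [Algebra ℂ O] {I P : Ideal O} {b : O}
    (h : ∀ r, r * b ∈ I ↔ r ∈ P) : Module.length ℂ (O ⧸ I) =
      Module.length ℂ (O ⧸ P) + Module.length ℂ (O ⧸ (I ⊔ Ideal.span {b})) := by
  let f : (O ⧸ P) →ₗ[O] (O ⧸ I) := P.mapQ I (LinearMap.toSpanSingleton O O b) fun r hr => (h r).2 hr
  let g : (O ⧸ I) →ₗ[O] (O ⧸ (I ⊔ Ideal.span {b})) := Submodule.factor le_sup_left
  have hf : Function.Injective f := by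
    rw [injective_iff_map_eq_zero]
    intro x hx
    obtain ⟨x, rfl⟩ := P.mkQ_surjective x
    exact (Submodule.Quotient.mk_eq_zero _).2 ((h x).1 ((Submodule.Quotient.mk_eq_zero _).1 hx))
  have hg : Function.Surjective g := Submodule.factor_surjective _
  refine Module.length_eq_add_of_exact (f.restrictScalars ℂ) (g.restrictScalars ℂ) hf hg
    fun y => ?_
  · obtain ⟨y, rfl⟩ := I.mkQ_surjective y
    refine ((Submodule.Quotient.mk_eq_zero _).trans mem_sup_span).trans ⟨?_, ?_⟩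
    · rintro ⟨r, hr⟩
      exact ⟨P.mkQ r, ((Submodule.Quotient.eq _).2 hr).symm⟩
    · rintro ⟨r, hr⟩
      obtain ⟨r, rfl⟩ := P.mkQ_surjective r
      exact ⟨r, (Submodule.Quotient.eq _).1 hr.symm⟩

/-- A chart that contains the point. -/
noncomputable def ch (x : Pt S.W) : K := x.exists_in.choose

theorem ch_mem (x : Pt S.W) : ch x ∈ S.W := x.exists_in.choose_spec.1

theorem ch_in (x : Pt S.W) : x.In (ch x) := x.exists_in.choose_spec.2

namespace RM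

variable (h : RM S.W 𝒜 ev)

/-- The map to the local ring. -/
noncomputable def ph (x : Pt S.W) : R →+* x.ring :=
  (ev (ch x)).codRestrict x.ring (h.ev_mem (ch_in x).1 (ch_in x).2)

theorem coe_ph (x : Pt S.W) (a : R) : (h.ph x a : K) = ev (ch x) a := rfl

/-- The colength of a homogeneous ideal at a point. -/
noncomputable def mu (x : Pt S.W) (I : Ideal R) : ℕ∞ := Module.length ℂ (x.ring ⧸ I.map (h.ph x))

theorem mu_eq_zero {x : Pt S.W} {I : Ideal R} {a : R} (ha : a ∈ I) (h1 : ¬ x.Van (h.ph x a)) :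
    h.mu x I = 0 := by
  have h2 : I.map (h.ph x) = ⊤ := Ideal.eq_top_of_isUnit_mem _ (Ideal.mem_map_of_mem _ ha)
    (isUnit_iff_inv _ |>.2 (Pt.inv_mem (h.ph x a).2 h1))
  rw [mu, h2, Module.length_eq_zero_iff]
  infer_instance

theorem exists_one (x : Pt S.W) : ∃ y ∈ 𝒜 1, h.ph x y = 1 := by
  obtain ⟨y, hy, e⟩ := h.lin (ch_mem x)
  exact ⟨y, hy, Subtype.ext (by rw [coe_ph, h.ev_lin hy (ch_in x).1, e, div_self (ch_in x).1]; rfl)⟩

variable (hS : S.Loc)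
include hS

theorem frac_pt (x : Pt S.W) (g : x.ring) : ∃ (n : ℕ) (u t : R), u ∈ 𝒜 n ∧ t ∈ 𝒜 n ∧
    IsUnit (h.ph x t) ∧ g * h.ph x t = h.ph x u := by
  obtain ⟨m, hm, h1, h2⟩ := hS.pt_chart x _ (ch_mem x) (ch_in x)
  obtain ⟨a, b, hb, e⟩ := h1.le g.2
  obtain ⟨n, u, t, hu, ht, e1, e2⟩ := h.exists_ev₂ (ch_mem x) (ch_in x).1 a.2 b.2
  refine ⟨n, u, t, hu, ht, (isUnit_iff_inv _).2 (Pt.inv_mem (h.ph x t).2 fun h3 => hb ?_),
    Subtype.ext ?_⟩
  · rw [h2, ← e2]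
    exact h3
  · change g * ev _ t = ev _ u
    rw [e1, e2, e]

theorem mem_map {x : Pt S.W} {I : Ideal R} (hI : I.IsHomogeneous 𝒜) {f : x.ring} :
    f ∈ I.map (h.ph x) ↔ ∃ (n : ℕ) (a s : R), a ∈ 𝒜 n ∧ a ∈ I ∧ s ∈ 𝒜 n ∧
      IsUnit (h.ph x s) ∧ f * h.ph x s = h.ph x a := by
  obtain ⟨y, hy, hy1⟩ := h.exists_one x
  let T : Ideal x.ring :=
    { carrier := {f | ∃ (n : ℕ) (a s : R), a ∈ 𝒜 n ∧ a ∈ I ∧ s ∈ 𝒜 n ∧
        IsUnit (h.ph x s) ∧ f * h.ph x s = h.ph x a}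
      zero_mem' := ⟨0, 0, 1, zero_mem _, I.zero_mem, SetLike.one_mem_graded 𝒜, by simp, by simp⟩
      add_mem' := by
        rintro f g ⟨m, a, s, ha, haI, hs, hu, e1⟩ ⟨n, b, t, hb, hbI, ht, hv, e2⟩
        refine ⟨m + n, a * t + s * b, s * t, add_mem (mul_mem_nat ha ht) (mul_mem_nat hs hb),
          add_mem (I.mul_mem_right _ haI) (I.mul_mem_left _ hbI), mul_mem_nat hs ht,
          by rw [map_mul]; exact hu.mul hv, ?_⟩
        rw [map_add, map_mul, map_mul, map_mul, ← e1, ← e2]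
        ring
      smul_mem' := by
        rintro c f ⟨m, a, s, ha, haI, hs, hu, e1⟩
        obtain ⟨n, u, t, hu', ht, hv, e2⟩ := h.frac_pt hS x c
        refine ⟨n + m, u * a, t * s, mul_mem_nat hu' ha, I.mul_mem_left _ haI, mul_mem_nat ht hs,
          by rw [map_mul]; exact hv.mul hu, ?_⟩
        rw [map_mul, map_mul, ← e1, ← e2, smul_eq_mul]
        ring }
  constructor
  · refine fun hf => (Ideal.map_le_iff_le_comap (K := T)).2 (h.le hI fun n a ha haI => ?_) hf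
    exact ⟨n, a, y ^ n, ha, haI, pow_mem hy n, by simp [hy1], by simp [hy1]⟩
  · rintro ⟨n, a, s, -, haI, -, hu, e⟩
    exact (Ideal.mul_unit_mem_iff_mem _ hu).1 (e ▸ Ideal.mem_map_of_mem _ haI)

theorem mu_add (x : Pt S.W) {I P : Ideal R} {j : ℕ} {b : R} (hI : I.IsHomogeneous 𝒜)
    (hP : P.IsHomogeneous 𝒜) (hb : b ∈ 𝒜 j) (h1 : ∀ r, r * b ∈ I ↔ r ∈ P) :
    h.mu x I = h.mu x P + h.mu x (I ⊔ Ideal.span {b}) := by
  obtain ⟨y, hy, hy1⟩ := h.exists_one x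
  unfold mu
  rw [Ideal.map_sup, Ideal.map_span, Set.image_singleton]
  refine length_quot fun r => ?_
  rw [h.mem_map hS hI, h.mem_map hS hP]
  constructor
  · rintro ⟨n, a, s, ha, haI, hs, hu, e⟩
    obtain ⟨k, u, t, hu', ht, hv, e2⟩ := h.frac_pt hS x r
    have h2 : u * s * b = a * t * y ^ j := by
      refine h.eq_of_ev (ch_in x).1 (mul_mem_nat (mul_mem_nat hu' hs) hb)
        (by rw [add_comm k]; exact mul_mem_nat (mul_mem_nat ha ht) (pow_mem hy j)) ?_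
      refine congrArg Subtype.val (show h.ph x _ = h.ph x _ from ?_)
      rw [map_mul, map_mul, map_mul, map_mul, map_pow, hy1, ← e, ← e2]
      ring
    refine ⟨k + n, u * s, t * s, mul_mem_nat hu' hs,
      (h1 _).1 (h2 ▸ I.mul_mem_right _ (I.mul_mem_right _ haI)), mul_mem_nat ht hs,
      by rw [map_mul]; exact hv.mul hu, ?_⟩
    rw [map_mul, map_mul, ← e2, mul_assoc]
  · rintro ⟨n, a, s, ha, haP, hs, hu, e⟩
    refine ⟨n + j, a * b, s * y ^ j, mul_mem_nat ha hb, (h1 a).2 haP, mul_mem_nat hs (pow_mem hy j),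
      by simpa [hy1] using hu, ?_⟩
    rw [map_mul, map_mul, map_pow, hy1, ← e]
    ring

theorem mu_self {x : Pt S.W} {P : Ideal R} (hx : IsPt 𝒜 ev x P) : h.mu x P = 1 := by
  have h1 : P.map (h.ph x) = IsLocalRing.maximalIdeal x.ring := by
    ext f
    rw [h.mem_map hS hx.2.1]
    constructor
    · rintro ⟨n, a, s, ha, haP, -, hu, e⟩
      refine (Ideal.mul_unit_mem_iff_mem _ hu).1 ?_
      rw [e, Pt.mem_max]
      exact (hx.2.2 _ (ch_mem x) (ch_in x) n a ha).1 haP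
    · intro hf
      obtain ⟨k, u, t, hu, ht, hv, e⟩ := h.frac_pt hS x f
      refine ⟨k, u, t, hu, (hx.2.2 _ (ch_mem x) (ch_in x) k u hu).2 ?_, ht, hv, e⟩
      exact (Pt.mem_max x _).1 (e ▸ Ideal.mul_mem_right _ _ hf)
  rw [mu, h1]
  have h2 : Nontrivial (x.ring ⧸ IsLocalRing.maximalIdeal x.ring) :=
    Ideal.Quotient.nontrivial_iff.2 (IsLocalRing.maximalIdeal.isMaximal _).ne_top
  refine (LinearEquiv.ofBijective (Algebra.linearMap ℂ _) ⟨(algebraMap ℂ _).injective,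
    fun z => ?_⟩).length_eq.symm.trans (Module.length_eq_one ℂ ℂ)
  obtain ⟨z, rfl⟩ := Ideal.Quotient.mk_surjective z
  obtain ⟨c, hc⟩ := hS.val x z z.2
  exact ⟨c, (Ideal.Quotient.eq.2 ((Pt.mem_max x (z - algebraMap ℂ _ c)).2 hc)).symm⟩

theorem mu_ne {x x' : Pt S.W} {P : Ideal R} (hx : IsPt 𝒜 ev x P) (h1 : x' ≠ x) :
    h.mu x' P = 0 := by
  obtain ⟨w, hw, h2⟩ := hS.sep x x' h1.symm
  obtain ⟨y, hy, rfl⟩ := h.lin (mem_van.1 hw).1
  refine h.mu_eq_zero (by_contra fun h3 => (mem_van.1 hw).2 ((h.pt_in hx hy).1 h3)) ?_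
  rw [coe_ph, h.ev_lin hy (ch_in x').1, ← Pt.in_iff (ch_in x') (ch_mem x') (h.lin_mem hy)]
  exact h2

omit hS in
theorem mu_irr (x : Pt S.W) {P : Ideal R} (hP : P ∈ Irr 𝒜) : h.mu x P = 0 := by
  obtain ⟨y, hy, hy1⟩ := h.exists_one x
  refine h.mu_eq_zero (hP y hy) ?_
  rw [hy1]
  exact x.not_van_one

variable [IsNoetherianRing R] {Q : Type} [AddCommGroup Q] {c : Pt S.W → Q} {τ : GM 𝒜 → Q}

theorem formula (hτ : Add (Irr 𝒜 ∪ Pts S 𝒜 ev) τ) (h0 : ∀ A : GM 𝒜, A.In (Irr 𝒜) → τ A = 0)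
    (h1 : ∀ x P, IsPt 𝒜 ev x P → τ (cyc 𝒜 P 0) = c x) (I : Ideal R) (hI : I.IsHomogeneous 𝒜) :
    (∀ P : Ideal R, P.IsPrime → P.IsHomogeneous 𝒜 → I ≤ P → P ∈ Irr 𝒜 ∪ Pts S 𝒜 ev) →
    (∀ x, h.mu x I ≠ ⊤) ∧ (Function.support fun x => h.mu x I).Finite ∧
      ∀ e, τ (cyc 𝒜 I e) = ∑ᶠ x, (h.mu x I).toNat • c x := by
  refine ideal_ind (𝒜 := 𝒜) (Φ := fun I =>
    (∀ P : Ideal R, P.IsPrime → P.IsHomogeneous 𝒜 → I ≤ P → P ∈ Irr 𝒜 ∪ Pts S 𝒜 ev) →
    (∀ x, h.mu x I ≠ ⊤) ∧ (Function.support fun x => h.mu x I).Finite ∧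
      ∀ e, τ (cyc 𝒜 I e) = ∑ᶠ x, (h.mu x I).toNat • c x) (fun _ => ?_) ?_ I hI
  · have h2 : ∀ x : Pt S.W, h.mu x ⊤ = 0 := fun x => h.mu_irr x fun _ _ => trivial
    simp only [h2]
    refine ⟨fun _ => ENat.zero_ne_top, by simp, fun e => ?_⟩
    rw [hτ.zero (A := cyc 𝒜 ⊤ e)
      (subsingleton_qt (hg_ideal (Ideal.IsHomogeneous.top 𝒜) e) fun _ => trivial)]
    simp
  intro I P j b hI hP hH hb h2 ih h3
  obtain ⟨j, rfl⟩ := (h.nat hb).resolve_left fun h4 =>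
    (Ideal.ne_top_iff_one _).1 hP.ne_top ((h2 1).1 (by simp [h4]))
  obtain ⟨i1, i2, i3⟩ := ih fun P' hP' hH' h4 => h3 P' hP' hH' (le_sup_left.trans h4)
  have h4 : (∀ x, h.mu x P ≠ ⊤) ∧ (Function.support fun x => h.mu x P).Finite ∧
      ∀ e, τ (cyc 𝒜 P e) = ∑ᶠ x, (h.mu x P).toNat • c x := by
    rcases h3 P hP hH fun r hr => (h2 r).1 (I.mul_mem_right _ hr) with h4 | ⟨x₀, hx⟩
    · simp only [h.mu_irr _ h4]
      refine ⟨fun _ => ENat.zero_ne_top, by simp, fun e => ?_⟩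
      rw [h0 _ (in_cyc hH e ((h.lev0 hS).cl P h4))]
      simp
    · refine ⟨fun x => ?_, (Set.finite_singleton x₀).subset fun x hx' =>
        by_contra fun h5 => hx' (h.mu_ne hS hx h5), fun e => ?_⟩
      · by_cases h5 : x = x₀
        · rw [h5, h.mu_self hS hx]
          exact ENat.one_ne_top
        · rw [h.mu_ne hS hx h5]
          exact ENat.zero_ne_top
      · rw [(h.lev0 hS).shift hτ h0 ⟨x₀, hx⟩, h1 x₀ P hx, finsum_eq_single _ x₀ fun x h5 => by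
          simp [h.mu_ne hS hx h5], h.mu_self hS hx]
        simp
  obtain ⟨j1, j2, j3⟩ := h4
  simp only [fun x => h.mu_add hS x hI hH hb h2]
  refine ⟨fun x => WithTop.add_ne_top.2 ⟨j1 x, i1 x⟩,
    (j2.union i2).subset (Function.support_add _ _), fun e => ?_⟩
  rw [hτ _ _ _ (ses_ideal hb e hI (hom_sup hI hb) h2 fun _ => mem_sup_span) (in_cyc hI e h3), j3, i3,
    ← finsum_add_distrib]
  · refine finsum_congr fun x => ?_
    rw [ENat.toNat_add (j1 x) (i1 x), add_smul]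
  · exact j2.subset fun x hx h5 => hx (by simp [show h.mu x P = 0 from h5])
  · exact i2.subset fun x hx h5 => hx (by simp [show h.mu x _ = 0 from h5])

end RM

end Vale.Agent.P297Z.Tau
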