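import Vale.Agent.P297Z.Tau.Mul
import Vale.Agent.P297Z.Surf.Mult

/-!
# The additive function on graded modules attached to a function on points
-/

set_option linter.unusedSectionVars false

namespace Vale.Agent.P297Z.Tau

open Sf GM

variable {K : Type} [Field K] [Algebra ℂ K] {R : Type} [CommRing R] {σ : Type} [SetLike σ R]
  [AddSubgroupClass σ R] {S : Surf K} {𝒜 : ℤ → σ} [GradedRing 𝒜] {ev : K → R →+* K}

variable (S) in
/-- The divisor of a form of degree `n`. -/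
noncomputable def dv (n : ℕ) (u : K) : Sf.Div S.W := div S.W u + (n : ℤ) • S.H

namespace RM

variable (h : RM S.W 𝒜 ev) (hS : S.Loc)
include h hS

theorem dv_apply {n : ℕ} {a : R} (ha : a ∈ 𝒜 n) (h0 : a ≠ 0) {C : Crv S.W} {w : K} (hw : w ∈ S.W)
    (hC : C.In w) : dv S n (ev 1 a) C = C.ord (ev w a) := by
  have h1 : ev 1 a ≠ 0 := fun h1 => h0 (h.inj n a ha h1)
  rw [dv, Finsupp.add_apply, Finsupp.smul_apply, hS.hyp_in C w hw hC, div,
    toDiv_apply (hS.fin_div _), h.hom w hC.1 n a ha]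
  unfold Crv.ord
  rw [Pl.ord_div _ h1 (pow_ne_zero _ hC.1), Pl.ord_pow, smul_eq_mul]
  ring

theorem dv_nonneg {n : ℕ} {a : R} (ha : a ∈ 𝒜 n) (h0 : a ≠ 0) : 0 ≤ dv S n (ev 1 a) := by
  intro C
  obtain ⟨w, hw, hC⟩ := C.exists_in
  rw [h.dv_apply hS ha h0 hw hC]
  exact Pl.ord_nonneg_of_mem _ (hC.chart_mem (h.ev_chart hC.1 a))

theorem dv_zero {n : ℕ} {a : R} (ha : a ∈ 𝒜 n) {C : Crv S.W} {P : Ideal R} (hC : IsCv 𝒜 ev C P)
    (h0 : a ∉ P) : dv S n (ev 1 a) C = 0 := by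
  have h1 : a ≠ 0 := fun h1 => h0 (h1 ▸ P.zero_mem)
  obtain ⟨w, hw, h2⟩ := C.exists_in
  refine le_antisymm ?_ (h.dv_nonneg hS ha h1 C)
  rw [h.dv_apply hS ha h1 hw h2]
  exact not_lt.1 fun h3 => h0 ((hC.2.2 w hw h2 n a ha).2 (.inr h3))

theorem idl_dv {n : ℕ} {a : R} (ha : a ∈ 𝒜 n) (h0 : a ≠ 0) (x : Pt S.W) :
    Ideal.span {h.ph x a} = idl x (dv S n (ev 1 a)) := by
  have h1 : ev (ch x) a ≠ 0 := fun h1 =>
    h0 (h.eq_of_ev (ch_in x).1 ha (zero_mem _) (h1.trans (map_zero _).symm))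
  have h2 : GenAt x (-dv S n (ev 1 a)) (ev (ch x) a) := ⟨h1, fun C hC => by
    rw [Finsupp.neg_apply, h.dv_apply hS ha h0 (ch_mem x) (hC.crv_in (ch_in x)), add_neg_cancel]⟩
  ext f
  rw [mem_idl, ← Mu.div_mem_ring hS h2, Ideal.mem_span_singleton']
  constructor
  · rintro ⟨c, rfl⟩
    have : ((c * h.ph x a : x.ring) : K) / ev (ch x) a = c := mul_div_cancel_right₀ _ h1
    rw [this]
    exact c.2
  · intro h3
    exact ⟨⟨_, h3⟩, Subtype.ext (div_mul_cancel₀ _ h1)⟩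

theorem idl_cv {C : Crv S.W} {P : Ideal R} (hC : IsCv 𝒜 ev C P) (x : Pt S.W) :
    P.map (h.ph x) = idl x (Finsupp.single C 1) := by
  refine le_antisymm (Ideal.map_le_iff_le_comap.2 (h.le hC.2.1 fun n a ha haP => ?_)) fun f hf => ?_
  · refine (em (ev (ch x) a = 0)).imp_right fun h1 C' hC' => ?_
    change 0 ≤ C'.ord (ev (ch x) a) + -(Finsupp.single C 1 C')
    by_cases h2 : C = C'
    · subst h2
      have := ((hC.2.2 _ (ch_mem x) (hC'.crv_in (ch_in x)) n a ha).1 haP).resolve_left h1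
      rw [Finsupp.single_eq_same]
      omega
    · rw [Finsupp.single_eq_of_ne' h2, neg_zero, add_zero]
      exact Pl.ord_nonneg_of_mem _ (hC' _ (h.ph x a).2)
  by_cases h1 : x.On C
  · obtain ⟨n, u, t, hu, ht, hv, e⟩ := h.frac_pt hS x f
    refine (h.mem_map hS hC.2.1).2 ⟨n, u, t, hu,
      (hC.2.2 _ (ch_mem x) (h1.crv_in (ch_in x)) n u hu).2 ?_, ht, hv, e⟩
    have e' : (f : K) * h.ph x t = ev (ch x) u := congrArg Subtype.val e
    rw [← e']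
    by_cases h2 : (f : K) = 0
    · exact .inl (by rw [h2, zero_mul])
    have h3 : 0 ≤ C.ord f + -(Finsupp.single C 1 C) := hf.resolve_left h2 C h1
    have h4 := Pl.ord_nonneg_of_mem _ (h1 _ (h.ph x t).2)
    rw [Finsupp.single_eq_same] at h3
    unfold Crv.ord at *
    rw [Pl.ord_mul _ h2 ((isUnit_iff_inv _).1 hv).1]
    omega
  · obtain ⟨w, hw, -, h2, h3⟩ := hS.avoid {x} {C}
    have h4 := h2 x (Finset.mem_singleton_self _)
    have h5 := h3 C (Finset.mem_singleton_self _)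
    rw [hS.on_iff x C w hw h4 h5] at h1
    push Not at h1
    obtain ⟨a, ha, h6, h7⟩ := h1
    obtain ⟨n, hn⟩ := h.exists_ev hw h4.1 ha
    obtain ⟨b, hb, rfl⟩ := hn n le_rfl
    have h8 : ¬ x.Van (h.ph x b) := fun h8 => h7 (by
      rw [h.ev_change (ch_in x).1 h4.1 hb]
      exact h8.mul_right (pow_mem (h4.2 _ (ch_mem x)) n))
    rw [Ideal.eq_top_of_isUnit_mem _ (Ideal.mem_map_of_mem _ ((hC.2.2 w hw h5 n b hb).2 (.inr h6)))
      ((isUnit_iff_inv _).2 (Pt.inv_mem (h.ph x b).2 h8))]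
    trivial

theorem mu_cv {C : Crv S.W} {P : Ideal R} (hC : IsCv 𝒜 ev C P) {n : ℕ} {a : R} (ha : a ∈ 𝒜 n)
    (h0 : a ≠ 0) (x : Pt S.W) : (h.mu x (P ⊔ Ideal.span {a})).toNat =
      mult x (Finsupp.single C 1) (dv S n (ev 1 a)) := by
  rw [mu, Ideal.map_sup, Ideal.map_span, Set.image_singleton, h.idl_dv hS ha h0, h.idl_cv hS hC,
    Module.length_eq_rank, Cardinal.toNat_toENat]
  rfl

variable [IsNoetherianRing R] {Q : Type} [AddCommGroup Q] {c : Pt S.W → Q}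

theorem exists_tau [DivisibleBy Q ℤ] (hc : RatOK c) : ∃ τ : GM 𝒜 → Q,
    (∀ A B C : GM 𝒜, SES A B C → τ B = τ A + τ C) ∧ (∀ A : GM 𝒜, A.In (Irr 𝒜) → τ A = 0) ∧
      ∀ x P, IsPt 𝒜 ev x P → τ (cyc 𝒜 P 0) = c x := by
  classical
  obtain ⟨τ₀, h1, h2, h3⟩ := (h.lev0 hS).step (τ := fun _ => (0 : Q))
    (fun _ _ _ _ _ => (add_zero _).symm) (fun _ _ _ _ _ _ _ _ _ => rfl)
    fun P => if h1 : P ∈ Pts S 𝒜 ev then c h1.choose else 0
  have h4 : ∀ x P, IsPt 𝒜 ev x P → τ₀ (cyc 𝒜 P 0) = c x := by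
    intro x P hx
    have h4 : P ∈ Pts S 𝒜 ev := ⟨x, hx⟩
    rw [h3 P h4, dif_pos h4]
    refine congrArg c (by_contra fun h5 => ?_)
    exact one_ne_zero ((h.mu_self hS h4.choose_spec).symm.trans (h.mu_ne hS hx h5))
  obtain ⟨τ₁, h5, h6, -⟩ := (h.lev1 hS).step h1 (by
    rintro P ⟨C, hC⟩ i a b ha hb haP hbP
    have ha0 : a ≠ 0 := fun h5 => haP (h5 ▸ P.zero_mem)
    have hb0 : b ≠ 0 := fun h5 => hbP (h5 ▸ P.zero_mem)
    obtain ⟨n, rfl⟩ := (h.nat ha).resolve_left ha0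
    have key : ∀ a : R, a ∈ 𝒜 n → a ∉ P → τ₀ (cyc 𝒜 (P ⊔ Ideal.span {a}) 0) =
        ∑ᶠ x, mult x (Finsupp.single C 1) (dv S n (ev 1 a)) • c x := by
      intro a ha haP
      rw [(h.formula hS h1 h2 h4 _ (hom_sup hC.2.1 ha) fun P' hP' hH h5 =>
        (h.lev1 hS).up P ⟨C, hC⟩ P' hP' hH (lt_of_le_of_ne (le_sup_left.trans h5) fun h6 =>
          haP (h6 ▸ h5 (Ideal.mem_sup_right (Ideal.mem_span_singleton_self a))))).2.2]
      simp only [h.mu_cv hS hC ha fun h5 => haP (h5 ▸ P.zero_mem)]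
    have ha1 : ev 1 a ≠ 0 := fun h5 => ha0 (h.inj n a ha h5)
    have hb1 : ev 1 b ≠ 0 := fun h5 => hb0 (h.inj n b hb h5)
    rw [key a ha haP, key b hb hbP]
    refine hc C _ _ (ev 1 a / ev 1 b) (h.dv_nonneg hS ha ha0) (h.dv_nonneg hS hb hb0)
      (h.dv_zero hS ha hC haP) (h.dv_zero hS hb hC hbP) (div_ne_zero ha1 hb1) ?_
    ext C'
    rw [dv, dv, add_sub_add_right_eq_sub, Finsupp.sub_apply, div, div, div,
      toDiv_apply (hS.fin_div _), toDiv_apply (hS.fin_div _), toDiv_apply (hS.fin_div _)]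
    exact Pl.ord_div _ ha1 hb1) fun _ => 0
  obtain ⟨τ, h7, h8⟩ := (h.lev1 hS).top (h.lev2 hS) h5 (h.hV hS) (h.hN hS)
  refine ⟨τ, fun A B C h9 => h7 A B C h9 (h.in_all hS B), fun A hA => ?_, fun x P hx => ?_⟩
  · rw [h8 A (hA.mono Set.subset_union_left), h6 A (hA.mono Set.subset_union_left), h2 A hA]
  · have h9 : (cyc 𝒜 P 0).In (Irr 𝒜 ∪ Pts S 𝒜 ev) :=
      in_cyc hx.2.1 0 ((h.lev1 hS).cl P (.inr ⟨x, hx⟩))
    rw [h8 _ h9, h6 _ h9, h4 x P hx]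

end RM

end Vale.Agent.P297Z.Tau
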